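import Vale.Agent.P168.MP.LogMom

/-!
P168: the weights of a cavity site and of cavity clauses.
-/

namespace Vale.Agent.P168

open MeasureTheory Finset

variable {K c : ℕ}

lemma isProbabilityMeasure_unif (hK : 0 < K) : IsProbabilityMeasure (unif K) := by
  refine ⟨?_⟩
  simp only [unif, Measure.smul_apply, smul_eq_mul, Measure.count_univ, ENat.card_eq_coe_fintype_card,
    Fintype.card_fin, ENat.toENNReal_coe]
  exact ENNReal.inv_mul_cancel (Nat.cast_ne_zero.2 hK.ne') (ENNReal.natCast_ne_top K)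

lemma siteW_pos (h : ℝ) (cl : Fin c → Table K × Fin K) (σ : Fin (c * K) → Bool) :
    0 < siteW h cl σ :=
  Finset.sum_pos (fun ε _ => mul_pos (Real.exp_pos _) (Finset.prod_pos fun k _ => Real.exp_pos _))
    Finset.univ_nonempty

lemma edgeW_pos (θs : Fin c → Table K) (σ : Fin (c * K) → Bool) : 0 < edgeW θs σ :=
  Finset.prod_pos fun k _ => Real.exp_pos _

lemma abs_spin (s : Bool) : |spin s| = 1 := by cases s <;> simp [spin]

lemma siteW_wbdd {B : ℝ} {h : ℝ} {cl : Fin c → Table K × Fin K} (hh : |h| ≤ B)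
    (hcl : ∀ k σ, |(cl k).1 σ| ≤ B) :
    WBdd (siteW h cl) (((c : ℝ) + 1) * B + Real.log 2) := by
  intro σ
  have hε : ∀ ε : Bool,
      Real.exp (-(((c : ℝ) + 1) * B)) ≤ Real.exp (h * spin ε) * ∏ k,
          Real.exp ((cl k).1 (Function.update (fun j => σ (finProdFinEquiv (k, j))) (cl k).2 ε)) ∧
        Real.exp (h * spin ε) * ∏ k,
          Real.exp ((cl k).1 (Function.update (fun j => σ (finProdFinEquiv (k, j))) (cl k).2 ε)) ≤
        Real.exp (((c : ℝ) + 1) * B) := by
    intro ε
    set a := fun k => (cl k).1 (Function.update (fun j => σ (finProdFinEquiv (k, j))) (cl k).2 ε)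
    rw [← Real.exp_sum, ← Real.exp_add, Real.exp_le_exp, Real.exp_le_exp, ← abs_le]
    have hsum : ∑ k : Fin c, |a k| ≤ c * B :=
      (Finset.sum_le_sum fun k _ => hcl k _).trans (by simp)
    calc |h * spin ε + ∑ k, a k| ≤ |h * spin ε| + ∑ k, |a k| :=
          (abs_add_le _ _).trans (by gcongr; exact Finset.abs_sum_le_sum_abs _ _)
      _ ≤ _ := by rw [abs_mul, abs_spin, mul_one]; nlinarith
  rw [siteW, Fintype.sum_bool]
  obtain ⟨a1, a2⟩ := hε true
  obtain ⟨b1, b2⟩ := hε false
  constructor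
  · have h2 : Real.exp (-(((c : ℝ) + 1) * B + Real.log 2)) ≤ Real.exp (-(((c : ℝ) + 1) * B)) :=
      Real.exp_le_exp.2 (by linarith [Real.log_nonneg (one_le_two (α := ℝ))])
    have h3 := Real.exp_pos (-(((c : ℝ) + 1) * B))
    linarith
  · rw [Real.exp_add (((c : ℝ) + 1) * B), Real.exp_log two_pos]
    linarith

lemma edgeW_wbdd {B : ℝ} {θs : Fin c → Table K} (hθ : ∀ k σ, |θs k σ| ≤ B) :
    WBdd (edgeW θs) ((c : ℝ) * B) := by
  intro σ
  rw [edgeW, ← Real.exp_sum, Real.exp_le_exp, Real.exp_le_exp, ← abs_le]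
  exact (Finset.abs_sum_le_sum_abs _ _).trans
    ((Finset.sum_le_sum fun k _ => hθ k _).trans (by simp))

lemma measurable_clauseAt (F : Fin K → Fin K → Bool) :
    Measurable fun p : Table K × Fin K => p.1 (F p.2) :=
  measurable_from_prod_countable_left fun l => measurable_pi_apply (F l)

lemma measurable_siteW (σ : Fin (c * K) → Bool) :
    Measurable fun p : ℝ × (Fin c → Table K × Fin K) => siteW p.1 p.2 σ :=
  Finset.measurable_sum _ fun ε _ => (measurable_fst.mul_const _).exp.mul
    (Finset.measurable_prod _ fun k _ =>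
      ((measurable_clauseAt fun l =>
        Function.update (fun j => σ (finProdFinEquiv (k, j))) l ε).comp
          ((measurable_pi_apply k).comp measurable_snd)).exp)

lemma measurable_edgeW (σ : Fin (c * K) → Bool) :
    Measurable fun θs : Fin c → Table K => edgeW θs σ :=
  Finset.measurable_prod _ fun k _ =>
    ((measurable_pi_apply (fun j => σ (finProdFinEquiv (k, j)))).comp (measurable_pi_apply k)).exp

lemma msgWeight_add (x : ℝ) : msgWeight x true + msgWeight x false = 1 := by
  simp [msgWeight, spin]; ring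

lemma msgWeight_nonneg {x : ℝ} (hx : |x| ≤ 1) (s : Bool) : 0 ≤ msgWeight x s := by
  obtain ⟨h1, h2⟩ := abs_le.1 hx
  cases s <;> simp [msgWeight, spin] <;> linarith

/-- Replacing the spin at `l` by `ε` and averaging it out. -/
lemma sum_update_eq (l : Fin K) (ε : Bool) (f : (Fin K → Bool) → ℝ) (w : Fin K → Bool → ℝ)
    (hw : w l true + w l false = 1) :
    ∑ s : Fin K → Bool, f (Function.update s l ε) * ∏ j, w j (s j) =
      ∑ σ with σ l = ε, f σ * ∏ j ∈ Finset.univ.erase l, w j (σ j) := by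
  have h1 : ∑ s : Fin K → Bool, f (Function.update s l ε) * ∏ j, w j (s j) =
      ∑ p ∈ (Finset.univ.filter fun σ : Fin K → Bool => σ l = ε) ×ˢ (Finset.univ : Finset Bool),
        f p.1 * ((∏ j ∈ Finset.univ.erase l, w j (p.1 j)) * w l p.2) := by
    refine Finset.sum_nbij' (fun s => (Function.update s l ε, s l))
      (fun p => Function.update p.1 l p.2) (fun s _ => by simp) (fun p _ => Finset.mem_univ _)
      (fun s _ => by simp) (fun p hp => ?_) fun s _ => ?_
    · have hpl : p.1 l = ε := by simpa using hp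
      simp [Function.update_idem, ← hpl]
    · rw [← Finset.prod_erase_mul _ _ (Finset.mem_univ l)]
      congr 2
      exact Finset.prod_congr rfl fun j hj => by
        simp [Function.update_of_ne (Finset.ne_of_mem_erase hj)]
  rw [h1, Finset.sum_product]
  refine Finset.sum_congr rfl fun σ _ => ?_
  simp only [← Finset.mul_sum, Fintype.sum_bool, hw, mul_one]

/-- The configurations of `c` clauses of `K` spins. -/
def splitSpins (c K : ℕ) : (Fin c → Fin K → Bool) ≃ (Fin (c * K) → Bool) :=
  (Equiv.curry (Fin c) (Fin K) Bool).symm.trans (finProdFinEquiv.arrowCongr (Equiv.refl Bool))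

lemma splitSpins_apply (s : Fin c → Fin K → Bool) (k : Fin c) (j : Fin K) :
    splitSpins c K s (finProdFinEquiv (k, j)) = s k j := by
  simp [splitSpins, Equiv.arrowCongr]

lemma prod_splitSpins {r : ℕ} (x : (Fin (r + 1) → UI) → ℝ) (y : Fin (r + 1) → Fin (c * K) → UI)
    (s : Fin c → Fin K → Bool) :
    ∏ i, msgWeight (msg x y i) (splitSpins c K s i) =
      ∏ k, ∏ j, msgWeight (msg x (fun p => y p ∘ finProdFinEquiv) (k, j)) (s k j) := by
  rw [← finProdFinEquiv.prod_comp, Fintype.prod_prod_type]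
  simp only [splitSpins_apply]
  rfl

lemma sum_siteW_msg {r : ℕ} (x : (Fin (r + 1) → UI) → ℝ) (h : ℝ)
    (cl : Fin c → Table K × Fin K) (y : Fin (r + 1) → Fin (c * K) → UI) :
    ∑ τ, siteW h cl τ * ∏ i, msgWeight (msg x y i) (τ i) =
      trialU x h cl fun p => y p ∘ finProdFinEquiv := by
  rw [← (splitSpins c K).sum_comp]
  simp only [siteW, prod_splitSpins, splitSpins_apply, Finset.sum_mul]
  rw [Finset.sum_comm]
  refine Finset.sum_congr rfl fun ε _ => ?_
  simp only [mul_assoc, ← Finset.prod_mul_distrib]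
  rw [← Finset.mul_sum, ← Fintype.prod_sum fun k (s : Fin K → Bool) =>
    Real.exp ((cl k).1 (Function.update s (cl k).2 ε)) *
      ∏ j, msgWeight (msg x (fun p => y p ∘ finProdFinEquiv) (k, j)) (s j)]
  exact congrArg _ (Finset.prod_congr rfl fun k _ =>
    sum_update_eq (cl k).2 ε (fun σ => Real.exp ((cl k).1 σ)) _ (msgWeight_add _))

lemma sum_edgeW_msg {r : ℕ} (x : (Fin (r + 1) → UI) → ℝ) (θs : Fin c → Table K)
    (y : Fin (r + 1) → Fin (c * K) → UI) :
    ∑ τ, edgeW θs τ * ∏ i, msgWeight (msg x y i) (τ i) =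
      trialV x θs fun p => y p ∘ finProdFinEquiv := by
  rw [← (splitSpins c K).sum_comp]
  simp only [edgeW, prod_splitSpins, splitSpins_apply, ← Finset.prod_mul_distrib]
  rw [← Fintype.prod_sum fun k (s : Fin K → Bool) => Real.exp (θs k s) *
    ∏ j, msgWeight (msg x (fun p => y p ∘ finProdFinEquiv) (k, j)) (s j)]
  rfl

end Vale.Agent.P168
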