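import Vale.Agent.P168.Nest
import Vale.Agent.P168.MP.Facts

/-!
P168: continuity of the cavity functional, and its value at the law of sites of a trial.
-/

namespace Vale.Agent.P168

open MeasureTheory Filter Finset Vale.Agent.P157.Low Vale.Agent.P166F.Low.Cascade
open scoped Topology

variable {K : ℕ} {lam B0 : ℝ} {μ : Measure (Table K)} {η : Measure ℝ} [IsProbabilityMeasure μ]
  [IsProbabilityMeasure η]

/-- The law of the spins of `m` sites under `n` replicas in a trial. -/
noncomputable def trialLaw {r : ℕ} (C : Casc r) (x : (Fin (r + 1) → UI) → ℝ) : ColLaw := fun m n σ =>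
  ∑ A, C.P n A * (pathTower C (volume : Measure (Fin m → UI)) (fun _ => 0)).plain A
    fun l y => ∏ i, msgWeight (msg x y i) (σ l i)

section trial

variable {r m : ℕ} {x : (Fin (r + 1) → UI) → ℝ}

lemma measurable_msg {ι : Type} (hx : Measurable x) (i : ι) :
    Measurable fun y : Fin (r + 1) → ι → UI => msg x y i :=
  hx.comp (measurable_pi_lambda _ fun p => (measurable_pi_apply i).comp (measurable_pi_apply p))

lemma bdd_msgProd (hx : Measurable x) (hb : ∀ ω, |x ω| ≤ 1) (τ : Fin m → Bool) :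
    Bdd (fun y : Fin (r + 1) → Fin m → UI => ∏ i, msgWeight (msg x y i) (τ i)) 1 := by
  refine ⟨Finset.measurable_prod _ fun i _ =>
    (((measurable_msg hx i).mul_const _).const_add 1).div_const 2, fun y => ?_⟩
  rw [abs_of_nonneg (Finset.prod_nonneg fun i _ => msgWeight_nonneg (x := msg x y i) (hb _) _)]
  refine Finset.prod_le_one (fun i _ => msgWeight_nonneg (x := msg x y i) (hb _) _) fun i _ => ?_
  have := msgWeight_add (msg x y i)
  have h1 := msgWeight_nonneg (x := msg x y i) (hb _) true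
  have h2 := msgWeight_nonneg (x := msg x y i) (hb _) false
  cases τ i <;> linarith

lemma sum_msgProd (y : Fin (r + 1) → Fin m → UI) :
    ∑ τ : Fin m → Bool, ∏ i, msgWeight (msg x y i) (τ i) = 1 := by
  rw [← Fintype.prod_sum fun (i : Fin m) s => msgWeight (msg x y i) s]
  simp [msgWeight_add]

/-- A product of functions of the replicas, averaged over the trial law. -/
lemma trialLaw_prod (C : Casc r) (hx : Measurable x) (hb : ∀ ω, |x ω| ≤ 1) (n : ℕ)
    (f : (Fin m → Bool) → ℝ) :
    ∑ σ, trialLaw C x m n σ * ∏ l, f (σ l) =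
      ∑ A, C.P n A * (pathTower C (volume : Measure (Fin m → UI)) (fun _ => 0)).plain A
        fun _ y => ∑ τ, f τ * ∏ i, msgWeight (msg x y i) (τ i) := by
  simp only [trialLaw, Finset.sum_mul]
  rw [Finset.sum_comm]
  refine Finset.sum_congr rfl fun A _ => ?_
  simp only [mul_assoc, ← Finset.mul_sum]
  congr 1
  simp only [Tower.plain, ← integral_mul_const]
  set T := pathTower C (volume : Measure (Fin m → UI)) (fun _ => 0)
  have hint : ∀ σ : Fin n → Fin m → Bool, Integrable (fun ω =>
      (∏ a, ∏ i, msgWeight (msg x (T.pos A ω (r + 1) a) i) (σ a i)) * ∏ l, f (σ l))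
      (T.noise r n) := by
    intro σ
    refine Integrable.mul_const (Integrable.of_bound (Finset.measurable_prod _ fun a _ =>
      (bdd_msgProd hx hb (σ a)).meas.comp (Tower.measurable_pos A (r + 1) a)).aestronglyMeasurable 1
      (Eventually.of_forall fun ω => ?_)) _
    rw [Real.norm_eq_abs, Finset.abs_prod]
    exact Finset.prod_le_one (fun a _ => abs_nonneg _) fun a _ => (bdd_msgProd hx hb (σ a)).le _
  rw [← integral_finsetSum _ fun σ _ => hint σ]
  refine integral_congr_ae (Eventually.of_forall fun ω => ?_)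
  simp only [← Finset.prod_mul_distrib]
  rw [← Fintype.prod_sum fun (a : Fin n) (τ : Fin m → Bool) =>
    (∏ i, msgWeight (msg x (T.pos A ω (r + 1) a) i) (τ i)) * f τ]
  exact Finset.prod_congr rfl fun a _ => Finset.sum_congr rfl fun τ _ => mul_comm _ _

lemma lavg_add_const {S Ω : Type} [MeasurableSpace S] [MeasurableSpace Ω] (T : Tower S Ω) (j : ℕ)
    (y : S) {f : S → ℝ} {L : ℝ} (hf : Bdd f L) (c : ℝ) :
    lavg (T.m j) T.μ (fun ξ => f (T.step j y ξ) + c) =
      lavg (T.m j) T.μ (fun ξ => f (T.step j y ξ)) + c := by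
  by_cases hm : T.m j = 0
  · simp only [lavg, if_pos hm]
    rw [integral_add (Tower.integrable_comp hf j y) (integrable_const _)]
    simp
  · simp only [lavg, if_neg hm, mul_add, Real.exp_add]
    rw [integral_mul_const, Real.log_mul
      ((Real.exp_pos _).trans_le (Tower.integral_exp_mem (T := T) hf j y).1).ne'
      (Real.exp_pos _).ne', Real.log_exp]
    field_simp

lemma val_add_const {S Ω : Type} [MeasurableSpace S] [MeasurableSpace Ω] (T : Tower S Ω) (R : ℕ)
    {U : S → ℝ} {L : ℝ} (hU : Bdd U L) (c : ℝ) :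
    ∀ k y, T.val R (fun y => U y + c) k y = T.val R U k y + c
  | 0, _ => rfl
  | k + 1, y => by
    simp only [Tower.val, val_add_const T R hU c k]
    exact lavg_add_const T _ y (Tower.bdd_val hU k) c

/-- At a trial the series of the logarithm is the nested average. -/
theorem logMom_trialLaw (C : Casc r) {e : Fin r → ℝ} (hC : C.cdf = withZero e) (he : ∀ p, 0 < e p)
    (hx : Measurable x) (hb : ∀ ω, |x ω| ≤ 1) {W : (Fin m → Bool) → ℝ} (hW : ∀ τ, 0 < W τ) :
    logMom (trialLaw C x) W = trialAvg (volume : Measure (Fin m → UI)) e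
      fun y => ∑ τ, W τ * ∏ i, msgWeight (msg x y i) (τ i) := by
  obtain ⟨L, hL⟩ := exists_wbdd hW
  set S := ∑ τ, W τ
  set Y : (Fin (r + 1) → Fin m → UI) → ℝ := fun y => ∑ τ, W τ * ∏ i, msgWeight (msg x y i) (τ i)
  set T := pathTower C (volume : Measure (Fin m → UI)) (fun _ => 0)
  have hS : 0 < S := hL.sum_pos
  have hYm : Measurable Y :=
    Finset.measurable_sum _ fun τ _ => (bdd_msgProd hx hb τ).meas.const_mul _
  have hmem : ∀ y, Real.exp (-L) ≤ Y y ∧ Y y ≤ Real.exp L := fun y => by
    have h0 : ∀ τ : Fin m → Bool, 0 ≤ ∏ i, msgWeight (msg x y i) (τ i) := fun τ =>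
      Finset.prod_nonneg fun i _ => msgWeight_nonneg (x := msg x y i) (hb _) _
    constructor
    · calc Real.exp (-L) = ∑ τ : Fin m → Bool, Real.exp (-L) * ∏ i, msgWeight (msg x y i) (τ i) := by
            rw [← Finset.mul_sum, sum_msgProd, mul_one]
        _ ≤ Y y := Finset.sum_le_sum fun τ _ => mul_le_mul_of_nonneg_right (hL τ).1 (h0 τ)
    · calc Y y ≤ ∑ τ : Fin m → Bool, Real.exp L * ∏ i, msgWeight (msg x y i) (τ i) :=
            Finset.sum_le_sum fun τ _ => mul_le_mul_of_nonneg_right (hL τ).2 (h0 τ)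
        _ = Real.exp L := by rw [← Finset.mul_sum, sum_msgProd, mul_one]
  have hYpos : ∀ y, 0 < Y y := fun y => (Real.exp_pos _).trans_le (hmem y).1
  have hlogY : ∀ y, |Real.log (Y y)| ≤ L := fun y => abs_le.2
    ⟨(Real.le_log_iff_exp_le (hYpos y)).2 (hmem y).1,
      (Real.log_le_iff_le_exp (hYpos y)).2 (hmem y).2⟩
  set X : (Fin (r + 1) → Fin m → UI) → ℝ := fun y => 1 - Y y / S
  have hXY : ∀ y, (∑ τ, (1 - W τ / S) * ∏ i, msgWeight (msg x y i) (τ i)) = X y := fun y => by
    simp only [sub_mul, one_mul, Finset.sum_sub_distrib, sum_msgProd, div_mul_eq_mul_div,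
      ← Finset.sum_div, X, Y]
  have hX : Bdd X (gap W L) := ⟨measurable_const.sub (hYm.div_const _), fun y => by
    have h0 : ∀ τ : Fin m → Bool, 0 ≤ ∏ i, msgWeight (msg x y i) (τ i) := fun τ =>
      Finset.prod_nonneg fun i _ => msgWeight_nonneg (x := msg x y i) (hb _) _
    rw [← hXY, abs_of_nonneg (Finset.sum_nonneg fun τ _ => mul_nonneg (hL.frac_mem τ).1 (h0 τ))]
    calc ∑ τ, (1 - W τ / S) * ∏ i, msgWeight (msg x y i) (τ i)
        ≤ ∑ τ : Fin m → Bool, gap W L * ∏ i, msgWeight (msg x y i) (τ i) :=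
          Finset.sum_le_sum fun τ _ => mul_le_mul_of_nonneg_right (hL.frac_mem τ).2 (h0 τ)
      _ = gap W L := by rw [← Finset.mul_sum, sum_msgProd, mul_one]⟩
  have key := Tower.log_series (T := T) (pathTower_fits C _ _) hX hL.gap_mem.1 hL.gap_mem.2
  have hser : ∀ k : ℕ, ∑ σ, trialLaw C x m (k + 1) σ * ∏ l, (1 - W (σ l) / S) =
      ∑ A, C.P (k + 1) A * T.plain A fun _ => X := fun k => by
    rw [trialLaw_prod C hx hb (k + 1) fun τ => 1 - W τ / S]
    simp only [hXY]
    rfl
  have hpot : (fun y => Real.log (1 - X y)) = fun y => Real.log (Y y) + -Real.log S := by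
    funext y
    simp only [X, sub_sub_cancel]
    rw [Real.log_div (hYpos y).ne' hS.ne', sub_eq_add_neg]
  rw [show logMom (trialLaw C x) W = Real.log S - ∑' k : ℕ,
      (∑ σ, trialLaw C x m (k + 1) σ * ∏ l, (1 - W (σ l) / S)) / ((k : ℝ) + 1) from rfl]
  simp only [hser]
  rw [key, hpot, trialAvg_eq_lev C _ (fun _ => 0) hC he hYm hYpos hlogY]
  simp only [Tower.lev]
  rw [val_add_const T (r + 1) ⟨hYm.log, hlogY⟩]
  ring

/-- Renaming the indices of the messages. -/
lemma trialAvg_reindex {a b : Type} [Fintype a] [Fintype b] (f : a ≃ b) (e : Fin r → ℝ)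
    {Z : (Fin (r + 1) → a → UI) → ℝ} (hZ : Measurable Z) :
    trialAvg (volume : Measure (b → UI)) e (fun y => Z fun p => y p ∘ f) =
      trialAvg (volume : Measure (a → UI)) e Z :=
  trialAvg_map _ _ (measurePreserving_comp (volume : Measure UI) f.injective) e hZ

end trial

lemma measurable_trialU {r c : ℕ} {x : (Fin (r + 1) → UI) → ℝ} (hx : Measurable x) (h : ℝ)
    (cl : Fin c → Table K × Fin K) : Measurable (trialU x h cl) :=
  Finset.measurable_sum _ fun _ _ => (Finset.measurable_prod _ fun k _ =>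
    Finset.measurable_sum _ fun σ _ => (Finset.measurable_prod _ fun j _ =>
      (((measurable_msg hx (k, j)).mul_const _).const_add 1).div_const 2).const_mul _).const_mul _

lemma measurable_trialV {r c : ℕ} {x : (Fin (r + 1) → UI) → ℝ} (hx : Measurable x)
    (θs : Fin c → Table K) : Measurable (trialV x θs) :=
  Finset.measurable_prod _ fun k _ =>
    Finset.measurable_sum _ fun σ _ => (Finset.measurable_prod _ fun j _ =>
      (((measurable_msg hx (k, j)).mul_const _).const_add 1).div_const 2).const_mul _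

theorem trialLaw_isProb {r : ℕ} (C : Casc r) {x : (Fin (r + 1) → UI) → ℝ} (hx : Measurable x)
    (hb : ∀ ω, |x ω| ≤ 1) : (trialLaw C x).IsProb := by
  refine ⟨fun m n σ => Finset.sum_nonneg fun A _ => mul_nonneg (C.nonneg n A)
    (integral_nonneg fun ω => Finset.prod_nonneg fun a _ => Finset.prod_nonneg fun i _ =>
      msgWeight_nonneg (hb _) _), fun m n => ?_⟩
  have h := trialLaw_prod C hx hb n fun _ : Fin m → Bool => (1 : ℝ)
  simp only [Finset.prod_const_one, mul_one, one_mul, sum_msgProd] at h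
  rw [h]
  simp [Tower.plain, C.total]

/-! ### Bounds and continuity -/

/-- The growth constant of one cavity average. -/
noncomputable def growth (K : ℕ) (B : ℝ) : ℝ := (|B| + Real.log 2) * ((K : ℝ) + 1)

lemma growth_le (c : ℕ) (B : ℝ) :
    ((c : ℝ) + 1) * |B| + Real.log 2 + (c * K : ℕ) * Real.log 2 ≤ growth K B * 2 ^ c := by
  have h2 : (c : ℝ) + 1 ≤ 2 ^ c := by exact_mod_cast Nat.lt_two_pow_self
  have hl := Real.log_nonneg (one_le_two (α := ℝ))
  have hK : (0 : ℝ) ≤ K := Nat.cast_nonneg _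
  have hc : (0 : ℝ) ≤ c := Nat.cast_nonneg _
  rw [growth, Nat.cast_mul]
  nlinarith [mul_nonneg hK (abs_nonneg B), mul_nonneg hl hK, mul_nonneg hc hl,
    mul_nonneg (mul_nonneg hK (abs_nonneg B)) (pow_nonneg zero_le_two c : (0 : ℝ) ≤ 2 ^ c),
    mul_le_mul_of_nonneg_left h2 (abs_nonneg B), mul_le_mul_of_nonneg_left h2 hl,
    mul_le_mul_of_nonneg_left h2 (mul_nonneg hl hK)]

omit [IsProbabilityMeasure η] in
lemma ae_site (hK : 0 < K) (hb : BoundedModel B0 μ η) (c : ℕ) :
    ∀ᵐ cl ∂Measure.pi (fun _ : Fin c => μ.prod (unif K)), ∀ k σ, |(cl k).1 σ| ≤ |B0| := by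
  have := isProbabilityMeasure_unif hK
  have h1 : ∀ᵐ p ∂μ.prod (unif K), ∀ σ, |p.1 σ| ≤ |B0| :=
    (Measure.quasiMeasurePreserving_fst.ae hb.1).mono fun p hp σ => (hp σ).trans (le_abs_self _)
  exact ae_all_iff.2 fun k => (Measure.tendsto_eval_ae_ae
    (μ := fun _ : Fin c => μ.prod (unif K)) (i := k)).eventually h1

omit [IsProbabilityMeasure η] in
lemma ae_edge (hb : BoundedModel B0 μ η) (c : ℕ) :
    ∀ᵐ θs ∂Measure.pi (fun _ : Fin c => μ), ∀ k σ, |θs k σ| ≤ |B0| := by
  have h1 : ∀ᵐ θ ∂μ, ∀ σ, |θ σ| ≤ |B0| := hb.1.mono fun θ hθ σ => (hθ σ).trans (le_abs_self _)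
  exact ae_all_iff.2 fun k => (Measure.tendsto_eval_ae_ae
    (μ := fun _ : Fin c => μ) (i := k)).eventually h1

lemma abs_logMom_siteW_le {p : ColLaw} (hp : p.IsProb) {c : ℕ} {h : ℝ} (hh : |h| ≤ |B0|)
    {cl : Fin c → Table K × Fin K} (hcl : ∀ k σ, |(cl k).1 σ| ≤ |B0|) :
    |logMom p (siteW h cl)| ≤ growth K B0 * 2 ^ c :=
  (abs_logMom_le (siteW_wbdd hh hcl) hp).trans (growth_le c B0)

lemma abs_logMom_edgeW_le {p : ColLaw} (hp : p.IsProb) {c : ℕ} {θs : Fin c → Table K}
    (hθ : ∀ k σ, |θs k σ| ≤ |B0|) : |logMom p (edgeW θs)| ≤ growth K B0 * 2 ^ c := by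
  refine (abs_logMom_le (edgeW_wbdd hθ) hp).trans (le_trans ?_ (growth_le c B0))
  have := abs_nonneg B0
  have := Real.log_nonneg (one_le_two (α := ℝ))
  nlinarith

omit [IsProbabilityMeasure η] in
lemma abs_siteInt_le (hK : 0 < K) (hb : BoundedModel B0 μ η) {p : ColLaw} (hp : p.IsProb) {c : ℕ}
    {h : ℝ} (hh : |h| ≤ |B0|) :
    |∫ cl, logMom p (siteW h cl) ∂Measure.pi fun _ : Fin c => μ.prod (unif K)| ≤
      growth K B0 * 2 ^ c := by
  have := isProbabilityMeasure_unif hK
  simpa using norm_integral_le_of_norm_le_const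
    (μ := Measure.pi fun _ : Fin c => μ.prod (unif K)) (C := growth K B0 * 2 ^ c)
    (f := fun cl => logMom p (siteW h cl))
    ((ae_site hK hb c).mono fun cl hcl => abs_logMom_siteW_le hp hh hcl)

lemma abs_siteAvg_le (hK : 0 < K) (hb : BoundedModel B0 μ η) {p : ColLaw} (hp : p.IsProb) (c : ℕ) :
    |∫ h, ∫ cl, logMom p (siteW h cl) ∂(Measure.pi fun _ : Fin c => μ.prod (unif K)) ∂η| ≤
      growth K B0 * 2 ^ c := by
  simpa using norm_integral_le_of_norm_le_const (μ := η) (C := growth K B0 * 2 ^ c)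
    (f := fun h => ∫ cl, logMom p (siteW h cl) ∂Measure.pi fun _ : Fin c => μ.prod (unif K))
    (hb.2.mono fun h hh => abs_siteInt_le hK hb hp (hh.trans (le_abs_self _)))

omit [IsProbabilityMeasure η] in
lemma abs_edgeAvg_le (hb : BoundedModel B0 μ η) {p : ColLaw} (hp : p.IsProb) (c : ℕ) :
    |∫ θs, logMom p (edgeW θs) ∂Measure.pi fun _ : Fin c => μ| ≤ growth K B0 * 2 ^ c := by
  simpa using norm_integral_le_of_norm_le_const
    (μ := Measure.pi fun _ : Fin c => μ) (C := growth K B0 * 2 ^ c)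
    (f := fun θs => logMom p (edgeW θs))
    ((ae_edge hb c).mono fun θs hθ => abs_logMom_edgeW_le hp hθ)

lemma means_nonneg (hK2 : 2 ≤ K) (hl : 0 < lam) :
    0 ≤ (K : ℝ) * lam ∧ 0 ≤ ((K : ℝ) - 1) * lam := by
  have : (2 : ℝ) ≤ K := by exact_mod_cast hK2
  exact ⟨by positivity, mul_nonneg (by linarith) hl.le⟩

/-- The cavity functional is bounded on probability laws. -/
theorem exists_cavityVal_bound (hK2 : 2 ≤ K) (hl : 0 < lam) (hb : BoundedModel B0 μ η) :
    ∃ C, ∀ p : ColLaw, p.IsProb → |cavityVal lam μ η p| ≤ C := by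
  refine ⟨poisBound (K * lam) (growth K B0) + poisBound (((K : ℝ) - 1) * lam) (growth K B0),
    fun p hp => ?_⟩
  obtain ⟨h1, h2⟩ := means_nonneg hK2 hl
  exact (abs_sub _ _).trans (add_le_add
    (abs_poissonAvg_le h1 fun c => abs_siteAvg_le (by omega) hb hp c)
    (abs_poissonAvg_le h2 fun c => abs_edgeAvg_le hb hp c))

/-- The cavity functional is continuous. -/
theorem tendsto_cavityVal (hK2 : 2 ≤ K) (hl : 0 < lam) (hb : BoundedModel B0 μ η) {p : ℕ → ColLaw}
    {q : ColLaw} (hp : ∀ t, (p t).IsProb) (h : ∀ m n σ, Tendsto (fun t => p t m n σ) atTop (𝓝 (q m n σ))) :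
    Tendsto (fun t => cavityVal lam μ η (p t)) atTop (𝓝 (cavityVal lam μ η q)) := by
  obtain ⟨h1, h2⟩ := means_nonneg hK2 hl
  have hK : 0 < K := by omega
  have := isProbabilityMeasure_unif hK
  refine (tendsto_poissonAvg h1 (fun t => abs_siteAvg_le hK hb (hp t)) fun c => ?_).sub
    (tendsto_poissonAvg h2 (fun t => abs_edgeAvg_le hb (hp t)) fun c => ?_)
  · have hm : ∀ p : ColLaw, Measurable fun z : ℝ × (Fin c → Table K × Fin K) =>
        logMom p (siteW z.1 z.2) := fun p => measurable_logMom p measurable_siteW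
    refine tendsto_integral_of_dominated_convergence (fun _ => growth K B0 * 2 ^ c)
      (fun t => ?_) (integrable_const _) (fun t => hb.2.mono fun z hz => ?_)
      (Eventually.of_forall fun z => ?_)
    · exact ((hm (p t)).stronglyMeasurable.integral_prod_right').aestronglyMeasurable
    · exact abs_siteInt_le hK hb (hp t) (hz.trans (le_abs_self _))
    · by_cases hz : |z| ≤ |B0|
      · exact tendsto_integral_of_dominated_convergence (fun _ => growth K B0 * 2 ^ c)
          (fun t => ((hm (p t)).comp measurable_prodMk_left).aestronglyMeasurable)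
          (integrable_const _)
          (fun t => (ae_site hK hb c).mono fun cl hcl => abs_logMom_siteW_le (hp t) hz hcl)
          (Eventually.of_forall fun cl => tendsto_logMom (siteW_pos z cl) hp h)
      · exact tendsto_integral_of_dominated_convergence
          (fun _ => growth K |z| * 2 ^ c + growth K B0 * 2 ^ c)
          (fun t => ((hm (p t)).comp measurable_prodMk_left).aestronglyMeasurable)
          (integrable_const _)
          (fun t => (ae_site hK hb c).mono fun cl hcl => by
            have hle : |B0| ≤ |z| := (not_le.1 hz).le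
            have := abs_logMom_siteW_le (B0 := |z|) (hp t) (h := z) (cl := cl) (by simp)
              fun k σ => ((hcl k σ).trans hle).trans (le_abs_self _)
            have hg : 0 ≤ growth K B0 * 2 ^ c := (abs_nonneg _).trans
              (abs_siteAvg_le hK hb (hp t) c)
            rw [Real.norm_eq_abs]
            linarith)
          (Eventually.of_forall fun cl => tendsto_logMom (siteW_pos z cl) hp h)
  · exact tendsto_integral_of_dominated_convergence (fun _ => growth K B0 * 2 ^ c)
      (fun t => (measurable_logMom (p t) measurable_edgeW).aestronglyMeasurable)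
      (integrable_const _)
      (fun t => (ae_edge hb c).mono fun θs hθ => abs_logMom_edgeW_le (hp t) hθ)
      (Eventually.of_forall fun θs => tendsto_logMom (edgeW_pos θs) hp h)

/-- At a trial the cavity functional is the trial value. -/
theorem cavityVal_trialLaw (hK2 : 2 ≤ K) (hl : 0 < lam) (hb : BoundedModel B0 μ η) {r : ℕ}
    (C : Casc r) {m : Fin r → ℝ} (hC : C.cdf = withZero m) (hm : ∀ p, 0 < m p)
    {x : (Fin (r + 1) → UI) → ℝ} (hx : Measurable x) (hxb : ∀ ω, |x ω| ≤ 1) :
    cavityVal lam μ η (trialLaw C x) = trialValue lam μ η m x := by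
  have hs : ∀ (c : ℕ) (h : ℝ) (cl : Fin c → Table K × Fin K),
      logMom (trialLaw C x) (siteW h cl) = trialAvg volume m (trialU x h cl) := fun c h cl => by
    rw [logMom_trialLaw C hC hm hx hxb (siteW_pos h cl),
      ← trialAvg_reindex finProdFinEquiv m (measurable_trialU hx h cl)]
    exact congrArg (trialAvg volume m) (funext fun y => sum_siteW_msg x h cl y)
  have he : ∀ (c : ℕ) (θs : Fin c → Table K),
      logMom (trialLaw C x) (edgeW θs) = trialAvg volume m (trialV x θs) := fun c θs => by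
    rw [logMom_trialLaw C hC hm hx hxb (edgeW_pos θs),
      ← trialAvg_reindex finProdFinEquiv m (measurable_trialV hx θs)]
    exact congrArg (trialAvg volume m) (funext fun y => sum_edgeW_msg x θs y)
  simp only [cavityVal, trialValue, hs, he]

end Vale.Agent.P168
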