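import Vale.Agent.P168.CascForm

/-!
P168: monotone grids on the occupied cells of a limit array.
-/

namespace Vale.Agent.P168

open MeasureTheory Vale.Agent.P157.Low
open Vale.Agent.P166F.Low (cellIdx cellIdx_mono cellIdx_self measurable_gridLev monotone_gridLev
  gridLev_close)

/-- A monotone discretisation of an array with strictly increasing exponents. -/
structure Grid (A : Arr) (K : ℕ) where
  r : ℕ
  τ : ℝ → Fin (r + 1)
  mono : Monotone τ
  meas : Measurable τ
  q : Fin (r + 1) → ℝ
  lev : P166F.Levels (A.toCasc τ meas mono).cdf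
  close : ∀ᵐ R ∂A.law 2, |q (τ (R 0 1)) - R 0 1| ≤ 2 / (K : ℝ)

theorem exists_grid (A : Arr) {K : ℕ} (hK : 2 ≤ K) : Nonempty (Grid A K) := by
  classical
  have := A.prob 2
  have hlt : ∀ x, gridLev K x < K := fun x => lt_of_le_of_lt (min_le_left _ _) (by omega)
  set cellSet : ℕ → Set (Mat 2) := fun k => {R | gridLev K (R 0 1) = k}
  set S := (Finset.range K).filter fun k => (A.law 2).real (cellSet k) ≠ 0 with hS
  have hocc : ∀ᵐ R ∂A.law 2, gridLev K (R 0 1) ∈ S := by
    have h : ∀ᵐ R ∂A.law 2, ∀ k : ℕ, k ∉ S → gridLev K (R 0 1) ≠ k := by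
      refine ae_all_iff.2 fun k => ?_
      by_cases hk : k ∈ S
      · exact .of_forall fun R h => absurd hk h
      by_cases hkK : k < K
      · have h0 : (A.law 2).real (cellSet k) = 0 := by
          by_contra hne
          exact hk (Finset.mem_filter.2 ⟨Finset.mem_range.2 hkK, hne⟩)
        rw [measureReal_eq_zero_iff, measure_eq_zero_iff_ae_notMem] at h0
        filter_upwards [h0] with R hR _ using hR
      · exact .of_forall fun R _ h => hkK (h ▸ hlt _)
    filter_upwards [h] with R hR
    by_contra hc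
    exact hR _ hc rfl
  obtain ⟨r, hr⟩ : ∃ r, S.card = r + 1 := by
    obtain ⟨R, hR⟩ := hocc.exists
    exact Nat.exists_eq_add_one.2 (Finset.card_pos.2 ⟨_, hR⟩)
  set e := S.orderEmbOfFin hr with he
  have heS : ∀ j, 0 < (A.law 2).real (cellSet (e j)) := fun j => by
    obtain ⟨-, h2⟩ := Finset.mem_filter.1 (S.orderEmbOfFin_mem hr j)
    exact lt_of_le_of_ne measureReal_nonneg (Ne.symm h2)
  let τ : ℝ → Fin (r + 1) := fun x => cellIdx (fun i => e i) (gridLev K x)
  have hmono : Monotone τ := (cellIdx_mono _).comp (monotone_gridLev K)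
  have hτ : Measurable τ :=
    (measurable_of_countable (cellIdx fun i => e i)).comp (measurable_gridLev K)
  have hself : ∀ j x, gridLev K x = e j → τ x = j := fun j x hx => by
    simp only [τ, hx, cellIdx_self e.strictMono j]
  set C := A.toCasc τ hτ hmono
  have hcdf : ∀ j, C.cdf j = (A.law 2).real {R | τ (R 0 1) < j} := fun j => by
    have h := A.sum_lev hτ 2 (fun B : LMat r 2 => if B 0 1 < j then (1 : ℝ) else 0)
    change (∑ B, A.lev τ 2 B * (if B 0 1 < j then (1 : ℝ) else 0)) = _
    have hm : MeasurableSet {R : Mat 2 | τ (R 0 1) < j} :=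
      (hτ.comp (measurable_entry 0 1)) (Set.to_countable {i | i < j}).measurableSet
    rw [← h, ← integral_indicator_one hm]
    refine integral_congr_ae (.of_forall fun R => ?_)
    simp [Set.indicator_apply, lift]
  have hcell : ∀ j, MeasurableSet (cellSet (e j)) := fun j =>
    ((measurable_gridLev K).comp (measurable_entry 0 1)) (measurableSet_singleton (e j))
  have hstep : ∀ i j, i < j → C.cdf i + (A.law 2).real (cellSet (e i)) ≤ C.cdf j := fun i j hij => by
    rw [hcdf, hcdf, ← measureReal_union (Set.disjoint_left.2 fun R h1 h2 => ?_) (hcell i)]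
    · refine measureReal_mono fun R hR => ?_
      rcases hR with h1 | h1
      · exact lt_trans h1 hij
      · exact lt_of_eq_of_lt (hself i _ h1) hij
    · exact (ne_of_lt h1) (hself i _ h2)
  refine ⟨⟨r, τ, hmono, hτ, fun j => (e j : ℝ) / K, ⟨?_, fun i j hij => ?_, fun j => ?_⟩, ?_⟩⟩
  · show C.cdf 0 = 0
    simp [hcdf]
  · show C.cdf i < C.cdf j
    linarith [hstep i j hij, heS i]
  · show C.cdf j < 1
    rw [hcdf]
    have hd : Disjoint {R : Mat 2 | τ (R 0 1) < j} (cellSet (e j)) :=
      Set.disjoint_left.2 fun R h1 h2 => (ne_of_lt h1) (hself j _ h2)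
    have h : (A.law 2).real {R | τ (R 0 1) < j} + (A.law 2).real (cellSet (e j)) ≤ 1 := by
      rw [← measureReal_union hd (hcell j)]
      exact measureReal_le_one
    linarith [heS j]
  · filter_upwards [hocc, A.nonneg 2, A.bdd 2] with R hR hnn hb
    obtain ⟨j, hj⟩ : gridLev K (R 0 1) ∈ Set.range e := by
      rw [he, Finset.range_orderEmbOfFin]
      exact hR
    rw [hself j _ hj.symm]
    show |(e j : ℝ) / K - R 0 1| ≤ 2 / (K : ℝ)
    rw [hj]
    exact gridLev_close (by omega) (hnn 0 1) (abs_le.1 (hb 0 1)).2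

end Vale.Agent.P168
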