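import Vale.Agent.P168.Sync.Ext

/-!
P168: the probability of a column of spins at one free site, as a function of the overlaps.
-/

namespace Vale.Agent.P168

open MeasureTheory Finset
open scoped symmDiff

/-- A set of replicas as a pattern of one site. -/
def sitePat {n : ℕ} (S : Finset (Fin n)) : Pat 1 := S.image fun a : Fin n => ((a : ℕ), (0 : Fin 1))

/-- The overlap of a set of replicas at one free site. -/
def siteR {n : ℕ} (S : Finset (Fin n)) (ω : Cube) : ℝ := R (Spc.free 1) (sitePat S) ω

/-- The probability of the column `σ`. -/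
noncomputable def colProb {n : ℕ} (σ : Fin n → Bool) (ω : Cube) : ℝ :=
  ((2 : ℝ) ^ n)⁻¹ * ∑ S : Finset (Fin n), (∏ a ∈ S, spin (σ a)) * siteR S ω

lemma below_sitePat {n : ℕ} (S : Finset (Fin n)) : Below n (sitePat S) := fun p hp => by
  obtain ⟨a, -, rfl⟩ := Finset.mem_image.1 hp
  exact a.2

lemma measurable_R (j : Spc) (A : Pat j.1) : Measurable (R j A) :=
  measurable_subtype_coe.comp (measurable_pi_apply _)

lemma abs_R_le (j : Spc) (A : Pat j.1) (ω : Cube) : |R j A ω| ≤ 1 := abs_le.2 (ω ⟨j, A⟩).2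

lemma obs_R {n : ℕ} (j : Spc) {A : Pat j.1} (hA : Below n A) : Obs n (R j A) :=
  ⟨⟨fun v => (v ⟨⟨j, A⟩, hA⟩ : ℝ), measurable_subtype_coe.comp (measurable_pi_apply _), rfl⟩,
    1, abs_R_le j A⟩

lemma measurable_siteR {n : ℕ} (S : Finset (Fin n)) : Measurable (siteR S) := measurable_R _ _

lemma measurable_colProb {n : ℕ} (σ : Fin n → Bool) : Measurable (colProb σ) :=
  (Finset.measurable_sum _ fun S _ => (measurable_siteR S).const_mul _).const_mul _

lemma sum_chi_mul {n : ℕ} (S : Finset (Fin n)) :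
    ∑ σ : Fin n → Bool, ∏ a ∈ S, spin (σ a) = if S = ∅ then (2 : ℝ) ^ n else 0 := by
  classical
  have h : ∀ σ : Fin n → Bool, ∏ a ∈ S, spin (σ a) = ∏ a, if a ∈ S then spin (σ a) else 1 :=
    fun σ => by simp [Finset.prod_ite_mem]
  simp only [h]
  rw [← Fintype.prod_sum fun a b => if a ∈ S then spin b else 1]
  rcases eq_or_ne S ∅ with rfl | hS
  · simp
  rw [if_neg hS]
  obtain ⟨a, ha⟩ := Finset.nonempty_iff_ne_empty.2 hS
  exact Finset.prod_eq_zero (Finset.mem_univ a) (by simp [ha, spin])

/-- The columns have total probability one. -/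
lemma sum_colProb {n : ℕ} (ω : Cube) : ∑ σ : Fin n → Bool, colProb σ ω = R (Spc.free 1) ∅ ω := by
  simp only [colProb, ← Finset.mul_sum]
  rw [Finset.sum_comm]
  simp only [← Finset.sum_mul, sum_chi_mul, ite_mul, zero_mul, Finset.sum_ite_eq',
    Finset.mem_univ, if_true, siteR, sitePat, Finset.image_empty]
  field_simp

/-- A sub-column: forget the other replicas. -/
lemma sum_colProb_comp {k n : ℕ} (e : Fin k → Fin n) (he : Function.Injective e)
    (τ : Fin k → Bool) (ω : Cube) :
    ∑ σ : Fin n → Bool, (if σ ∘ e = τ then colProb σ ω else 0) =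
      ((2 : ℝ) ^ k)⁻¹ * ∑ S : Finset (Fin k), (∏ a ∈ S, spin (τ a)) * siteR (S.image e) ω := by
  classical
  have key : ∀ T : Finset (Fin n), ∑ σ : Fin n → Bool,
      (if σ ∘ e = τ then ∏ a ∈ T, spin (σ a) else 0) =
      ((2 : ℝ) ^ k)⁻¹ * ∑ S : Finset (Fin k), (∏ a ∈ S, spin (τ a)) *
        (if T = S.image e then (2 : ℝ) ^ n else 0) := by
    intro T
    have hind : ∀ σ : Fin n → Bool, (if σ ∘ e = τ then (1 : ℝ) else 0) =
        ((2 : ℝ) ^ k)⁻¹ * ∑ S : Finset (Fin k), (∏ a ∈ S, spin (τ a)) * ∏ a ∈ S, spin (σ (e a)) := by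
      intro σ
      have : ∑ S : Finset (Fin k), (∏ a ∈ S, spin (τ a)) * ∏ a ∈ S, spin (σ (e a)) =
          ∏ a, (1 + spin (τ a) * spin (σ (e a))) := by
        rw [Finset.prod_one_add, Finset.powerset_univ]
        exact Finset.sum_congr rfl fun S _ => (Finset.prod_mul_distrib).symm
      rw [this]
      split_ifs with h
      · have : ∀ a, 1 + spin (τ a) * spin (σ (e a)) = 2 := fun a => by
          rw [← congrFun h a]
          simp only [Function.comp_apply, spin]
          split_ifs <;> norm_num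
        simp [this]
      · obtain ⟨a, ha⟩ : ∃ a, σ (e a) ≠ τ a := by
          by_contra hne
          push Not at hne
          exact h (funext hne)
        rw [Finset.prod_eq_zero (Finset.mem_univ a), mul_zero]
        cases hσ : σ (e a) <;> cases hτ : τ a <;> simp_all [spin]
    calc ∑ σ : Fin n → Bool, (if σ ∘ e = τ then ∏ a ∈ T, spin (σ a) else 0)
        = ∑ σ : Fin n → Bool, ((2 : ℝ) ^ k)⁻¹ * ∑ S : Finset (Fin k),
            (∏ a ∈ S, spin (τ a)) * ∏ a ∈ T ∆ S.image e, spin (σ a) := by
          refine Finset.sum_congr rfl fun σ _ => ?_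
          rw [show (if σ ∘ e = τ then ∏ a ∈ T, spin (σ a) else 0) =
            (if σ ∘ e = τ then (1 : ℝ) else 0) * ∏ a ∈ T, spin (σ a) by split_ifs <;> simp,
            hind, mul_assoc, Finset.sum_mul]
          refine congrArg _ (Finset.sum_congr rfl fun S _ => ?_)
          rw [← Finset.prod_image (f := fun a => spin (σ a)) (fun a _ b _ h => he h), mul_assoc]
          congr 1
          have hsplit : ∀ U : Finset (Fin n), ∏ a ∈ U, spin (σ a) =
              ∏ a, if a ∈ U then spin (σ a) else 1 := fun U => by simp [Finset.prod_ite_mem]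
          rw [hsplit, hsplit T, hsplit, ← Finset.prod_mul_distrib]
          refine Finset.prod_congr rfl fun a _ => ?_
          by_cases h1 : a ∈ T <;> by_cases h2 : a ∈ S.image e <;> cases hσ : σ a <;>
            simp [Finset.mem_symmDiff, h1, h2, spin]
      _ = _ := by
          rw [← Finset.mul_sum, Finset.sum_comm]
          refine congrArg _ (Finset.sum_congr rfl fun S _ => ?_)
          rw [← Finset.mul_sum, sum_chi_mul]
          simp [symmDiff_eq_bot, ← Finset.bot_eq_empty]
  calc ∑ σ : Fin n → Bool, (if σ ∘ e = τ then colProb σ ω else 0)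
      = ((2 : ℝ) ^ n)⁻¹ * ∑ T : Finset (Fin n),
          (∑ σ : Fin n → Bool, (if σ ∘ e = τ then ∏ a ∈ T, spin (σ a) else 0)) * siteR T ω := by
        simp only [Finset.sum_mul]
        rw [Finset.sum_comm, Finset.mul_sum]
        refine Finset.sum_congr rfl fun σ _ => ?_
        split_ifs
        · simp [colProb]
        · simp
    _ = _ := by
        simp only [key, Finset.mul_sum, Finset.sum_mul]
        rw [Finset.sum_comm]
        refine Finset.sum_congr rfl fun S _ => ?_
        rw [Finset.sum_eq_single (S.image e) (fun T _ h => by simp [h]) (by simp), if_pos rfl]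
        field_simp

/-- A column probability is nonnegative. -/
lemma colProb_nonneg (L : Lim) {n : ℕ} (σ : Fin n → Bool) : ∀ᵐ ω ∂L.P, 0 ≤ colProb σ ω := by
  classical
  have hinj : Function.Injective (sitePat (n := n)) := by
    intro S T h
    ext a
    have h' := congrArg (fun U : Pat 1 => ((a : ℕ), (0 : Fin 1)) ∈ U) h
    simpa [sitePat, Fin.val_inj] using h'
  have hΔ : ∀ S T : Finset (Fin n), sitePat S ∆ sitePat T = sitePat (S ∆ T) := fun S T =>
    (Finset.image_symmDiff _ _ fun a b h => Fin.ext (congrArg Prod.fst h)).symm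
  set c : Pat 1 → ℝ := Function.extend sitePat (fun S : Finset (Fin n) => ∏ a ∈ S, spin (σ a)) 0
  filter_upwards [L.psd (Spc.free 1) ((Finset.univ : Finset (Finset (Fin n))).image sitePat) c]
    with ω hω
  rw [Finset.sum_image fun S _ T _ h => hinj h] at hω
  have e : (∑ S : Finset (Fin n), ∑ A' ∈ (Finset.univ : Finset (Finset (Fin n))).image sitePat,
      c (sitePat S) * c A' * R (Spc.free 1) (sitePat S ∆ A') ω) =
      (2 : ℝ) ^ n * ((2 : ℝ) ^ n * colProb σ ω) := by
    simp only [Finset.sum_image fun S _ T _ h => hinj h, c, hinj.extend_apply, hΔ]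
    have inner : ∀ S : Finset (Fin n), ∑ T, (∏ a ∈ S, spin (σ a)) * (∏ a ∈ T, spin (σ a)) *
        R (Spc.free 1) (sitePat (S ∆ T)) ω = (2 : ℝ) ^ n * colProb σ ω := by
      intro S
      rw [colProb, ← mul_assoc, mul_inv_cancel₀ (by positivity), one_mul]
      refine Fintype.sum_equiv ⟨fun T => S ∆ T, fun T => S ∆ T,
        fun T => symmDiff_symmDiff_cancel_left S T, fun T => symmDiff_symmDiff_cancel_left S T⟩
        _ _ fun T => ?_
      simp only [Equiv.coe_fn_mk, siteR]
      congr 1
      have hsplit : ∀ U : Finset (Fin n), ∏ a ∈ U, spin (σ a) =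
          ∏ a, if a ∈ U then spin (σ a) else 1 := fun U => by simp [Finset.prod_ite_mem]
      rw [hsplit, hsplit T, hsplit, ← Finset.prod_mul_distrib]
      refine Finset.prod_congr rfl fun a _ => ?_
      by_cases h1 : a ∈ T <;> by_cases h2 : a ∈ S <;> cases hσ : σ a <;>
        simp [Finset.mem_symmDiff, h1, h2, spin]
    simp [inner]
  rw [e] at hω
  have hp : (0 : ℝ) < 2 ^ n := by positivity
  exact (mul_nonneg_iff_of_pos_left hp).1 ((mul_nonneg_iff_of_pos_left hp).1 hω)

end Vale.Agent.P168
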