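import Vale.Agent.P168.MP.Tree
import Vale.Agent.P168.MP.Grid
import Vale.Agent.P168.MP.Site
import Vale.Agent.P168.Induct.Step

/-!
P168: the free sites of a limit are approximated by site kernels over cascades.
-/

namespace Vale.Agent.P168

open MeasureTheory Filter Finset Vale.Agent.P157.Low
open scoped Topology

/-- A cascade with a site kernel and strictly increasing exponents. -/
structure CoarseModel where
  r : ℕ
  C : Casc r
  lev : P166F.Levels C.cdf
  ker : SiteKer C

section levels

variable {L : Lim} {X : ℕ → ℕ → Cube → ℝ} {A : Arr} {K : ℕ}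

/-- The levels of the first `n` replicas. -/
noncomputable def coarse (G : Grid A K) (X : ℕ → ℕ → Cube → ℝ) (n : ℕ) (ω : Cube) : LMat G.r n :=
  lift G.τ (matS X n ω)

/-- Levels as numbers in the unit interval. -/
noncomputable def lvlVal {r : ℕ} (j : Fin (r + 1)) : ℝ := ((j : ℕ) : ℝ) / ((r : ℝ) + 1)

/-- The average of `f` on the replicas of given levels. -/
noncomputable def cellAvg (L : Lim) (G : Grid A K) (X : ℕ → ℕ → Cube → ℝ) (n : ℕ) (f : Cube → ℝ)
    (B : LMat G.r n) : ℝ :=
  (∫ ω, (if coarse G X n ω = B then f ω else 0) ∂L.P) / (A.toCasc G.τ G.meas G.mono).P n B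

variable (hX : GGTree L X) (hA : ∀ n, A.law n = L.P.map (matS X n)) (G : Grid A K)

include hX in
lemma measurable_entryX (a b : ℕ) : Measurable (X a b) := by
  obtain ⟨g, hg, e⟩ := (hX.obs a b (a + b + 1) (by omega) (by omega)).fac
  rw [e]
  exact hg.comp (measurable_pi_lambda _ fun i => measurable_pi_apply _)

include hX in
lemma measurable_matS (n : ℕ) : Measurable (matS X n) :=
  measurable_pi_lambda _ fun a => measurable_pi_lambda _ fun b => by
    simp only [matS]
    split_ifs
    · exact measurable_const
    · exact measurable_entryX hX _ _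

include hX in
lemma measurable_coarse (n : ℕ) : Measurable (coarse G X n) :=
  (Vale.Agent.P157.Low.measurable_lift G.meas).comp (measurable_matS hX n)

include hX hA in
lemma casc_P (n : ℕ) (B : LMat G.r n) :
    (A.toCasc G.τ G.meas G.mono).P n B = ∫ ω, (if coarse G X n ω = B then (1 : ℝ) else 0) ∂L.P := by
  have hm : MeasurableSet ((fun R : Mat n => lift G.τ R) ⁻¹' {B}) :=
    (Vale.Agent.P157.Low.measurable_lift G.meas) (measurableSet_singleton B)
  show A.lev G.τ n B = _
  rw [Arr.lev, hA, map_measureReal_apply (measurable_matS hX n) hm,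
    ← integral_indicator_one ((measurable_matS hX n) hm)]
  refine integral_congr_ae (Eventually.of_forall fun ω => ?_)
  by_cases h : lift G.τ (matS X n ω) = B
  · rw [Set.indicator_of_mem (show ω ∈ _ from h)]; simp [coarse, h]
  · rw [Set.indicator_of_notMem (show ω ∉ _ from h)]; simp [coarse, h]

include hX in
lemma obs_indicator_coarse {n : ℕ} (Φ : LMat G.r n → ℝ) : Obs n fun ω => Φ (coarse G X n ω) := by
  have hpt : ∀ a b : Fin n, ∃ g : ({i : Idx // Below n i.2} → ↥(Set.Icc (-1 : ℝ) 1)) → ℝ,
      Measurable g ∧ X a b = g ∘ restr n := fun a b => (hX.obs a b n a.2 b.2).fac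
  choose g hg e using hpt
  refine ⟨⟨fun v => Φ (lift G.τ fun a b => if a = b then 1 else g a b v), ?_, ?_⟩,
    ⟨∑ B, |Φ B|, fun ω => Finset.single_le_sum (fun B _ => abs_nonneg (Φ B)) (Finset.mem_univ _)⟩⟩
  · refine (measurable_of_finite Φ).comp ((Vale.Agent.P157.Low.measurable_lift G.meas).comp ?_)
    exact measurable_pi_lambda _ fun a => measurable_pi_lambda _ fun b => by
      split_ifs
      · exact measurable_const
      · exact hg a b
  · funext ω
    simp only [coarse, Function.comp_apply]
    congr 2
    funext a b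
    simp only [matS, e a b, Function.comp_apply]

lemma Obs.mul {n : ℕ} {f g : Cube → ℝ} (hf : Obs n f) (hg : Obs n g) :
    Obs n fun ω => f ω * g ω := by
  obtain ⟨⟨u, hu, rfl⟩, D, hD⟩ := hf
  obtain ⟨⟨v, hv, rfl⟩, E, hE⟩ := hg
  refine ⟨⟨fun x => u x * v x, hu.mul hv, rfl⟩, D * E, fun ω => ?_⟩
  rw [abs_mul]
  exact mul_le_mul (hD ω) (hE ω) (abs_nonneg _) ((abs_nonneg _).trans (hD ω))

lemma Obs.sub {n : ℕ} {f g : Cube → ℝ} (hf : Obs n f) (hg : Obs n g) :
    Obs n fun ω => f ω - g ω := by
  obtain ⟨⟨u, hu, rfl⟩, D, hD⟩ := hf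
  obtain ⟨⟨v, hv, rfl⟩, E, hE⟩ := hg
  exact ⟨⟨fun x => u x - v x, hu.sub hv, rfl⟩, D + E, fun ω =>
    (abs_sub _ _).trans (add_le_add (hD ω) (hE ω))⟩

lemma Obs.mono {k n : ℕ} (hkn : k ≤ n) {f : Cube → ℝ} (hf : Obs k f) : Obs n f := by
  obtain ⟨⟨u, hu, rfl⟩, D, hD⟩ := hf
  exact ⟨⟨fun x => u fun i => x ⟨i.1, fun p hp => lt_of_lt_of_le (i.2 p hp) hkn⟩,
    hu.comp (measurable_pi_lambda _ fun i => measurable_pi_apply _), rfl⟩, D, hD⟩

lemma Obs.measurable {n : ℕ} {f : Cube → ℝ} (hf : Obs n f) : Measurable f := by
  obtain ⟨⟨u, hu, rfl⟩, -⟩ := hf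
  exact hu.comp (measurable_pi_lambda _ fun i => measurable_pi_apply _)

lemma Obs.integrable {n : ℕ} {f : Cube → ℝ} (hf : Obs n f) : Integrable f L.P := by
  obtain ⟨D, hD⟩ := hf.bdd
  exact Integrable.of_bound hf.measurable.aestronglyMeasurable D
    (Eventually.of_forall fun ω => by rw [Real.norm_eq_abs]; exact hD ω)

include hX hA in
/-- The average over cells integrates like the function on events of its own levels. -/
lemma integral_cellAvg {n : ℕ} {f : Cube → ℝ} (hf : Obs n f) (Φ : LMat G.r n → ℝ) :
    ∫ ω, f ω * Φ (coarse G X n ω) ∂L.P =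
      ∫ ω, cellAvg L G X n f (coarse G X n ω) * Φ (coarse G X n ω) ∂L.P := by
  classical
  have split : ∀ (u : Cube → ℝ), Obs n u → ∫ ω, u ω * Φ (coarse G X n ω) ∂L.P =
      ∑ B, Φ B * ∫ ω, (if coarse G X n ω = B then u ω else 0) ∂L.P := fun u hu => by
    simp only [← integral_const_mul]
    have hi : ∀ B, Integrable (fun ω => Φ B * (if coarse G X n ω = B then u ω else 0)) L.P :=
      fun B => by
        have h := (hu.mul (obs_indicator_coarse hX G (n := n) fun B' => if B' = B then 1 else 0))
        refine ((h.integrable).const_mul (Φ B)).congr (Eventually.of_forall fun ω => ?_)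
        simp
    rw [← integral_finsetSum _ fun B _ => hi B]
    refine integral_congr_ae (Eventually.of_forall fun ω => ?_)
    simp [mul_comm]
  rw [split f hf, split _ (obs_indicator_coarse hX G (cellAvg L G X n f))]
  refine Finset.sum_congr rfl fun B _ => congrArg _ ?_
  have e : ∀ ω, (if coarse G X n ω = B then cellAvg L G X n f (coarse G X n ω) else 0) =
      cellAvg L G X n f B * (if coarse G X n ω = B then (1 : ℝ) else 0) := fun ω => by
    split_ifs with h
    · simp [h]
    · simp
  rw [integral_congr_ae (Eventually.of_forall e), integral_const_mul, ← casc_P hX hA G, cellAvg]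
  rcases eq_or_ne ((A.toCasc G.τ G.meas G.mono).P n B) 0 with h | h
  · rw [h, mul_zero]
    obtain ⟨D, hD⟩ := hf.bdd
    rw [casc_P hX hA G] at h
    have h0 : ∀ᵐ ω ∂L.P, (if coarse G X n ω = B then (1 : ℝ) else 0) = 0 :=
      (integral_eq_zero_iff_of_nonneg (fun ω => by positivity)
        ((obs_indicator_coarse hX G (n := n) fun B' => if B' = B then 1 else 0).integrable)).1 h
    refine integral_eq_zero_of_ae ?_
    filter_upwards [h0] with ω hω
    split_ifs at hω ⊢ with h'
    · exact absurd hω one_ne_zero
    · rfl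
  · rw [div_mul_cancel₀ _ h]

/-- The image of the levels under the numbering is a tree. -/
lemma ggTree_levels (hX : GGTree L X) (G : Grid A K) :
    GGTree L fun a b ω => lvlVal (G.τ (X a b ω)) := by
  refine GGTree.map L hX (τ := fun x => lvlVal (G.τ x)) (fun x y hxy => ?_) fun t => ?_
  · simp only [lvlVal]
    gcongr
    exact G.mono hxy
  · have h1 : ((G.τ t : ℕ) : ℝ) ≤ G.r := Nat.cast_le.2 (Nat.lt_succ_iff.1 (G.τ t).2)
    refine ⟨by unfold lvlVal; positivity, ?_⟩
    rw [lvlVal, div_le_one (by positivity)]
    linarith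

include hX hA in
/-- More replicas say nothing more about the levels of the first ones. -/
lemma cellAvg_sub {k : ℕ} (hk : 1 ≤ k) {f : Cube → ℝ} (hf : Obs k f) :
    ∀ (d : ℕ) (Φ : LMat G.r (k + d) → ℝ), ∫ ω, f ω * Φ (coarse G X (k + d) ω) ∂L.P =
      ∫ ω, cellAvg L G X k f (coarse G X k ω) * Φ (coarse G X (k + d) ω) ∂L.P := by
  intro d
  induction d with
  | zero => exact fun Φ => integral_cellAvg hX hA G hf Φ
  | succ d ih =>
    intro Φ
    set g : Cube → ℝ := fun ω => f ω - cellAvg L G X k f (coarse G X k ω)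
    have hg : Obs (k + d) g :=
      (hf.mono (by omega)).sub ((obs_indicator_coarse hX G _).mono (by omega))
    have hg0 : ∀ Ψ : LMat G.r (k + d) → ℝ, ∫ ω, g ω * Ψ (coarse G X (k + d) ω) ∂L.P = 0 := by
      intro Ψ
      simp only [g, sub_mul]
      rw [integral_sub (((hf.mono (by omega)).mul (obs_indicator_coarse hX G Ψ)).integrable)
        ((((obs_indicator_coarse hX G _).mono (by omega)).mul
          (obs_indicator_coarse hX G Ψ)).integrable), ih Ψ, sub_self]
    have hX' := ggTree_levels hX G
    set X' := fun a b ω => lvlVal (G.τ (X a b ω))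
    classical
    -- decoding a place into levels
    let dec : ℝ → Fin (G.r + 1) := fun v =>
      if h : ∃ j : Fin (G.r + 1), lvlVal j = v then h.choose else 0
    have hdec : ∀ j : Fin (G.r + 1), dec (lvlVal j) = j := fun j => by
      have h : ∃ i : Fin (G.r + 1), lvlVal i = lvlVal j := ⟨j, rfl⟩
      simp only [dec, dif_pos h]
      have := h.choose_spec
      simp only [lvlVal] at this
      rw [div_left_inj' (by positivity)] at this
      exact Fin.ext (Nat.cast_inj.1 this)
    have hdm : Measurable dec := by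
      have : dec = fun v => if h : ∃ j : Fin (G.r + 1), lvlVal j = v then h.choose else 0 := rfl
      refine measurable_to_countable' fun j => ?_
      by_cases hj : j = 0
      · subst hj
        have e : dec ⁻¹' {0} = (lvlVal '' {i : Fin (G.r + 1) | i ≠ 0})ᶜ := by
          ext v
          simp only [Set.mem_preimage, Set.mem_singleton_iff, Set.mem_compl_iff, Set.mem_image]
          refine ⟨fun h ⟨i, hi, e⟩ => hi (by rw [← hdec i, e, h]), fun h => ?_⟩
          by_contra hne
          simp only [dec] at hne
          split_ifs at hne with hex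
          · exact h ⟨hex.choose, hne, hex.choose_spec⟩
          · exact hne rfl
        rw [e]
        exact ((Set.toFinite _).image _).measurableSet.compl
      · have e : dec ⁻¹' {j} = {lvlVal j} := by
          ext v
          simp only [Set.mem_preimage, Set.mem_singleton_iff]
          refine ⟨fun h => ?_, fun h => h ▸ hdec j⟩
          simp only [dec] at h
          split_ifs at h with hex
          · rw [← h]; exact hex.choose_spec.symm
          · exact absurd h.symm hj
        rw [e]
        exact measurableSet_singleton _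
    -- the levels of one more replica from the place
    let n := k + d
    let build : Place n → LMat G.r (n + 1) := fun q a b =>
      if a = b then Fin.last G.r else
        Fin.lastCases (Fin.lastCases (Fin.last G.r) (fun b' => dec (q.2 b')) b)
          (fun a' => Fin.lastCases (dec (q.2 a')) (fun b' => dec (q.1 a' b')) b) a
    have hbuild : Measurable build := by
      refine measurable_pi_lambda _ fun a => measurable_pi_lambda _ fun b => ?_
      simp only [build]
      split_ifs
      · exact measurable_const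
      · refine Fin.lastCases ?_ (fun a' => ?_) a <;> refine Fin.lastCases ?_ (fun b' => ?_) b <;>
          simp only [Fin.lastCases_last, Fin.lastCases_castSucc]
        · exact measurable_const
        · exact hdm.comp ((measurable_pi_apply b').comp measurable_snd)
        · exact hdm.comp ((measurable_pi_apply a').comp measurable_snd)
        · exact hdm.comp ((measurable_pi_apply b').comp ((measurable_pi_apply a').comp measurable_fst))
    have hplace : ∀ᵐ ω ∂L.P, build (placeK X' n n ω) = coarse G X (n + 1) ω := by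
      have hs : ∀ᵐ ω ∂L.P, ∀ a b : Fin (n + 1), X a b ω = X b a ω :=
        ae_all_iff.2 fun a => ae_all_iff.2 fun b => hX.symm a b
      filter_upwards [hs] with ω hω
      funext a b
      simp only [build, coarse, lift, matS]
      by_cases hab : a = b
      · simp [hab]
      simp only [hab, if_false]
      revert hab
      refine Fin.lastCases ?_ (fun a' => ?_) a <;> refine Fin.lastCases ?_ (fun b' => ?_) b <;>
        intro hab <;> simp only [Fin.lastCases_last, Fin.lastCases_castSucc, placeK, posK, matS, X',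
          hdec, Fin.val_last, Fin.val_castSucc, n]
      · exact absurd rfl hab
      · have := hω (Fin.last n) a'.castSucc
        simp only [Fin.val_last, Fin.val_castSucc, n] at this
        rw [this]
      · have hab' : a' ≠ b' := fun h => hab (by rw [h])
        simp [hab', hdec]
    set h : Place n → ℝ := fun q => Φ (build q)
    have hs := hX'.strong (k := n) (n := n) (by omega) le_rfl hg
      (h := h) ((measurable_of_finite Φ).comp hbuild) (C := ∑ B, |Φ B|)
      fun q => Finset.single_le_sum (fun B _ => abs_nonneg (Φ B)) (Finset.mem_univ _)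
    rw [Finset.Ico_self, Finset.sum_empty, zero_add] at hs
    set γ : (Fin n → Fin n → ℝ) → ℝ := fun M => ∫ p, h (M, p) ∂posLaw L X' n M
    have hγ : ∀ ω, γ (matS X' n ω) =
        (fun B : LMat G.r n => γ fun a b => if a = b then 1 else lvlVal (B a b))
          (coarse G X n ω) := fun ω => by
      show γ _ = γ _
      congr 1
      funext a b
      simp only [matS, X', coarse, lift]
      split_ifs <;> rfl
    have hz : ∫ ω, g ω * h (placeK X' n n ω) ∂L.P = 0 := by
      have hn : (n : ℝ) ≠ 0 := Nat.cast_ne_zero.2 (by omega)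
      refine (mul_right_inj' hn).1 ?_
      rw [hs, mul_zero]
      have hI : ∫ ω, g ω * γ (matS X' n ω) ∂L.P = 0 := by
        simp only [hγ]
        exact hg0 fun B : LMat G.r n => γ fun a b => if a = b then 1 else lvlVal (B a b)
      exact mul_eq_zero_of_right _ hI
    have he : ∫ ω, g ω * h (placeK X' n n ω) ∂L.P =
        ∫ ω, g ω * Φ (coarse G X (n + 1) ω) ∂L.P :=
      integral_congr_ae (hplace.mono fun ω hω => by simp only [h, hω])
    rw [he] at hz
    simp only [g, sub_mul] at hz
    refine sub_eq_zero.1 (Eq.trans (integral_sub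
      (((hf.mono (by omega)).mul (obs_indicator_coarse hX G Φ)).integrable)
      ((((obs_indicator_coarse hX G (cellAvg L G X k f)).mono (by omega)).mul
        (obs_indicator_coarse hX G Φ)).integrable)).symm hz)

lemma obs_colProb {n : ℕ} (σ : Fin n → Bool) : Obs n (colProb σ) := by
  refine ⟨⟨fun v => ((2 : ℝ) ^ n)⁻¹ * ∑ S : Finset (Fin n), (∏ a ∈ S, spin (σ a)) *
    (v ⟨⟨Spc.free 1, sitePat S⟩, below_sitePat S⟩ : ℝ), ?_, rfl⟩,
    ((2 : ℝ) ^ n)⁻¹ * ∑ _S : Finset (Fin n), 1, fun ω => ?_⟩
  · exact (Finset.measurable_sum _ fun S _ =>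
      (measurable_subtype_coe.comp (measurable_pi_apply _)).const_mul _).const_mul _
  · rw [colProb, abs_mul, abs_of_nonneg (by positivity : (0 : ℝ) ≤ ((2 : ℝ) ^ n)⁻¹)]
    refine mul_le_mul_of_nonneg_left ((Finset.abs_sum_le_sum_abs _ _).trans
      (Finset.sum_le_sum fun S _ => ?_)) (by positivity)
    rw [abs_mul, Finset.abs_prod]
    refine mul_le_one₀ (Finset.prod_le_one (fun a _ => abs_nonneg _) fun a _ => ?_) (abs_nonneg _)
      (abs_R_le _ _ _)
    cases σ a <;> simp [spin]

lemma sum_ite_mul_Obs {n : ℕ} {f : Cube → ℝ} (hX : GGTree L X) (hf : Obs n f) (B : LMat G.r n) :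
    Integrable (fun ω => if coarse G X n ω = B then f ω else 0) L.P := by
  have h := hf.mul (obs_indicator_coarse hX G (n := n) fun B' => if B' = B then 1 else 0)
  exact h.integrable.congr (Eventually.of_forall fun ω => by simp)

include hX hA in
/-- The kernel of one site over the levels of a grid. -/
theorem exists_siteKer : ∃ κ : SiteKer (A.toCasc G.τ G.meas G.mono),
    ∀ n B σ, κ.law n B σ = cellAvg L G X n (colProb σ) B := by
  classical
  set C := A.toCasc G.τ G.meas G.mono
  refine ⟨⟨fun n B σ => cellAvg L G X n (colProb σ) B, fun n B σ hB => ?_, fun n B hB => ?_, ?_⟩,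
    fun _ _ _ => rfl⟩
  · refine div_nonneg (integral_nonneg_of_ae ?_) (C.nonneg n B)
    filter_upwards [colProb_nonneg L σ] with ω hω
    simp only [Pi.zero_apply]
    split_ifs
    exacts [hω, le_rfl]
  · have hp : 0 < C.P n B := casc_pos C G.lev hB
    show ∑ σ, (∫ ω, (if coarse G X n ω = B then colProb σ ω else 0) ∂L.P) / C.P n B = 1
    rw [← Finset.sum_div, div_eq_one_iff_eq hp.ne', casc_P hX hA G,
      ← integral_finsetSum _ fun σ _ => sum_ite_mul_Obs G hX (obs_colProb σ) B]
    refine integral_congr_ae ?_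
    filter_upwards [L.one (Spc.free 1)] with ω hω
    split_ifs
    · rw [sum_colProb, hω]
    · simp
  intro k n e he B hB τ
  have hp : 0 < C.P n B := casc_pos C G.lev hB
  have hinj : Function.Injective fun a : Fin k => ((e a : Fin n) : ℕ) :=
    Fin.val_injective.comp he
  rcases Nat.eq_zero_or_pos k with rfl | hk
  · have hall : ∀ σ : Fin n → Bool, σ ∘ e = τ := fun σ => funext fun a => a.elim0
    have hp0 : 0 < C.P 0 (sub B e) := casc_pos C G.lev (Vale.Agent.P166F.Low.Cascade.good_sub hB e)
    show ∑ σ, (if σ ∘ e = τ then cellAvg L G X n (colProb σ) B else 0) = cellAvg L G X 0 (colProb τ) _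
    simp only [hall, if_true, cellAvg]
    rw [← Finset.sum_div, ← integral_finsetSum _ fun σ _ => sum_ite_mul_Obs G hX (obs_colProb σ) B]
    have e0 : ∀ ω, coarse G X 0 ω = sub B e := fun ω => funext fun a => a.elim0
    have h1 : ∫ ω, ∑ σ : Fin n → Bool, (if coarse G X n ω = B then colProb σ ω else 0) ∂L.P =
        C.P n B := by
      rw [casc_P hX hA G]
      refine integral_congr_ae ?_
      filter_upwards [L.one (Spc.free 1)] with ω hω
      split_ifs
      · rw [sum_colProb, hω]
      · simp
    have h2 : ∫ ω, (if coarse G X 0 ω = sub B e then colProb τ ω else 0) ∂L.P = C.P 0 (sub B e) := by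
      rw [casc_P hX hA G]
      refine integral_congr_ae ?_
      filter_upwards [L.one (Spc.free 1)] with ω hω
      simp only [e0, if_true]
      simp [colProb, siteR, sitePat, Finset.univ_unique, hω,
        Subsingleton.elim (default : Finset (Fin 0)) ∅]
    rw [h1, h2, div_self hp.ne', div_self hp0.ne']
  -- a permutation of the replicas moving the first `k` onto the image of `e`
  have hkn : k ≤ n := by simpa using Fintype.card_le_of_injective e he
  obtain ⟨π, hπ⟩ : ∃ π : Equiv.Perm (Fin n), ∀ a : Fin k, π (Fin.castLE hkn a) = e a := by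
    let u : {x : Fin n // (x : ℕ) < k} ≃ {x : Fin n // x ∈ Set.range e} :=
      { toFun := fun x => ⟨e ⟨x.1, x.2⟩, ⟨_, rfl⟩⟩
        invFun := fun y => ⟨Fin.castLE hkn y.2.choose, y.2.choose.2⟩
        left_inv := fun x => by
          have h := he (Exists.choose_spec (⟨⟨x.1, x.2⟩, rfl⟩ : ∃ a, e a = e ⟨x.1, x.2⟩))
          apply Subtype.ext
          apply Fin.ext
          simpa using congrArg Fin.val h
        right_inv := fun y => Subtype.ext y.2.choose_spec }
    refine ⟨u.extendSubtype, fun a => ?_⟩
    rw [Equiv.extendSubtype_apply_of_mem u _ a.2]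
    rfl
  let ρ : ℕ → ℕ := fun x => if h : x < n then (π ⟨x, h⟩ : ℕ) else x
  have hρ : Function.Injective ρ := by
    intro x y hxy
    simp only [ρ] at hxy
    split_ifs at hxy with h1 h2 h2
    · exact congrArg Fin.val (π.injective (Fin.ext hxy))
    · exact absurd (hxy ▸ (π ⟨x, h1⟩).2) h2
    · exact absurd (hxy.symm ▸ (π ⟨y, h2⟩).2) h1
    · exact hxy
  have hρe : ∀ a : Fin k, ρ a = e a := fun a => by
    simp only [ρ, dif_pos (show (a : ℕ) < n by omega)]
    exact congrArg Fin.val (hπ a)
  have hcoarse : ∀ ω, coarse G X n (relabel ρ ω) = sub (coarse G X n ω) π := fun ω => by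
    funext a b
    simp only [coarse, lift, matS, sub, π.injective.eq_iff]
    split_ifs
    · rfl
    · rw [hX.equiv ρ hρ]
      simp [ρ]
  have hsite : ∀ ω, ∑ σ : Fin n → Bool, (if σ ∘ e = τ then colProb σ ω else 0) =
      colProb τ (relabel ρ ω) := fun ω => by
    rw [sum_colProb_comp e he τ ω, colProb]
    refine congrArg _ (Finset.sum_congr rfl fun S _ => congrArg _ ?_)
    show R (Spc.free 1) _ ω = R (Spc.free 1) _ ω
    congr 1
    simp only [sitePat, Finset.image_image]
    exact Finset.image_congr fun a _ => by simp [hρe]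
  set B' : LMat G.r n := sub B π
  have hsubB : sub B' (Fin.castLE hkn) = sub B e := by
    funext a b
    simp [B', sub, hπ]
  have hobs : Obs k (colProb τ) := obs_colProb τ
  have hperm : ∀ (ω : Cube), coarse G X n ω = B ↔ coarse G X n (relabel ρ ω) = B' := fun ω => by
    rw [hcoarse]
    refine ⟨fun h => by rw [h], fun h => ?_⟩
    funext a b
    simpa [B', sub] using congrFun (congrFun h (π.symm a)) (π.symm b)
  show ∑ σ, (if σ ∘ e = τ then cellAvg L G X n (colProb σ) B else 0) =
    cellAvg L G X k (colProb τ) (sub B e)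
  have h1 : ∑ σ : Fin n → Bool, (if σ ∘ e = τ then cellAvg L G X n (colProb σ) B else 0) =
      (∫ ω, (if coarse G X n ω = B' then colProb τ ω else 0) ∂L.P) / C.P n B := by
    simp only [cellAvg, ← ite_zero_mul, div_eq_mul_inv]
    rw [← Finset.sum_mul]
    congr 1
    calc ∑ σ : Fin n → Bool,
          (if σ ∘ e = τ then ∫ ω, (if coarse G X n ω = B then colProb σ ω else 0) ∂L.P else 0)
        = ∑ σ : Fin n → Bool, ∫ ω, (if coarse G X n ω = B then
            (if σ ∘ e = τ then colProb σ ω else 0) else 0) ∂L.P := by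
          refine Finset.sum_congr rfl fun σ _ => ?_
          by_cases h : σ ∘ e = τ <;> simp [h]
      _ = ∫ ω, (if coarse G X n ω = B then colProb τ (relabel ρ ω) else 0) ∂L.P := by
          rw [← integral_finsetSum]
          · refine integral_congr_ae (Eventually.of_forall fun ω => ?_)
            by_cases h : coarse G X n ω = B <;> simp [h, hsite]
          · intro σ _
            by_cases h : σ ∘ e = τ
            · simpa [h] using sum_ite_mul_Obs G hX (obs_colProb σ) B
            · simp [h]
      _ = _ := by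
          simp only [hperm]
          exact L.integral_relabel hρ ((Measurable.ite ((measurable_coarse hX G n)
            (measurableSet_singleton B')) (measurable_colProb τ) measurable_const))
  rw [h1]
  have hB' : Good B' := Vale.Agent.P166F.Low.Cascade.good_sub hB _
  have h2 : ∫ ω, (if coarse G X n ω = B' then colProb τ ω else 0) ∂L.P =
      C.P n B' * cellAvg L G X k (colProb τ) (sub B' (Fin.castLE hkn)) := by
    obtain ⟨d, rfl⟩ := Nat.exists_eq_add_of_le hkn
    have h := cellAvg_sub hX hA G hk hobs d fun D => if D = B' then 1 else 0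
    simp only [mul_ite, mul_one, mul_zero] at h
    rw [h, casc_P hX hA G, mul_comm, ← integral_const_mul]
    refine integral_congr_ae (Eventually.of_forall fun ω => ?_)
    by_cases hc : coarse G X (k + d) ω = B'
    · simp only [if_pos hc, mul_one]
      congr 1
      rw [← hc]
      funext a b
      simp [coarse, lift, matS, sub, Fin.ext_iff]
    · simp [hc]
  have h3 : C.P n B' = C.P n B := by
    have := C.marg (fun a => π a) π.injective fun D => if D = B' then (1 : ℝ) else 0
    simp only [mul_ite, mul_one, mul_zero, Finset.sum_ite_eq', Finset.mem_univ, if_true] at this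
    rw [← this, Finset.sum_eq_single B]
    · simp [B']
    · intro D _ hne
      rw [if_neg fun h => hne ?_]
      funext a b
      simpa [B', sub] using congrFun (congrFun h (π.symm a)) (π.symm b)
    · simp
  rw [h2, h3, hsubB]
  field_simp

include hX hA in
/-- Products of cell averages integrate to the column law of the kernel. -/
lemma col_eq (κ : SiteKer (A.toCasc G.τ G.meas G.mono))
    (hκ : ∀ n B σ, κ.law n B σ = cellAvg L G X n (colProb σ) B) (m n : ℕ)
    (σ : Fin n → Fin m → Bool) :
    κ.col m n σ =
      ∫ ω, ∏ i : Fin m, cellAvg L G X n (colProb fun l => σ l i) (coarse G X n ω) ∂L.P := by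
  have h := (A.sum_lev G.meas n fun B => ∏ i : Fin m, cellAvg L G X n (colProb fun l => σ l i) B)
  rw [hA n, integral_map (measurable_matS hX n).aemeasurable
    (show Measurable fun R : Mat n => ∏ i : Fin m,
      cellAvg L G X n (colProb fun l => σ l i) (lift G.τ R) from
      (measurable_of_finite fun B : LMat G.r n =>
        ∏ i : Fin m, cellAvg L G X n (colProb fun l => σ l i) B).comp
        (Vale.Agent.P157.Low.measurable_lift G.meas)).aestronglyMeasurable] at h
  simp only [SiteKer.col, hκ]
  exact h.symm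

include hX hA in
/-- The cell average is the best constant up to a factor two. -/
lemma integral_abs_sub_cellAvg {n : ℕ} {f : Cube → ℝ} (hf : Obs n f) (u : LMat G.r n → ℝ) :
    ∫ ω, |f ω - cellAvg L G X n f (coarse G X n ω)| ∂L.P ≤
      2 * ∫ ω, |f ω - u (coarse G X n ω)| ∂L.P := by
  set c := fun ω => cellAvg L G X n f (coarse G X n ω)
  set v := fun ω => u (coarse G X n ω)
  have hc : Obs n c := obs_indicator_coarse hX G _
  have hv : Obs n v := obs_indicator_coarse hX G u
  set s : LMat G.r n → ℝ := fun B => if u B ≤ cellAvg L G X n f B then 1 else -1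
  have hs : ∀ B, |s B| = 1 := fun B => by simp only [s]; split_ifs <;> simp
  have h1 : ∫ ω, |c ω - v ω| ∂L.P ≤ ∫ ω, |f ω - v ω| ∂L.P := by
    have e : ∀ ω, |c ω - v ω| = (c ω - v ω) * s (coarse G X n ω) := fun ω => by
      simp only [s, c, v]
      split_ifs with h
      · rw [abs_of_nonneg (by linarith), mul_one]
      · rw [abs_of_nonpos (by linarith [not_le.1 h])]; ring
    simp only [e]
    have hso := obs_indicator_coarse hX G (n := n) s
    have heq : ∫ ω, (c ω - v ω) * s (coarse G X n ω) ∂L.P =
        ∫ ω, (f ω - v ω) * s (coarse G X n ω) ∂L.P := by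
      simp only [sub_mul]
      rw [integral_sub ((hc.mul hso).integrable) ((hv.mul hso).integrable),
        integral_sub ((hf.mul hso).integrable) ((hv.mul hso).integrable),
        integral_cellAvg hX hA G hf s]
    rw [heq]
    refine integral_mono (((hf.sub hv).mul hso).integrable) (hf.sub hv).integrable.abs fun ω => ?_
    refine (le_abs_self _).trans ?_
    rw [abs_mul, hs, mul_one]
  calc ∫ ω, |f ω - c ω| ∂L.P ≤ ∫ ω, (|f ω - v ω| + |c ω - v ω|) ∂L.P := by
        refine integral_mono (hf.sub hc).integrable.abs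
          ((hf.sub hv).integrable.abs.add (hc.sub hv).integrable.abs) fun ω => ?_
        rw [abs_sub_comm (c ω)]
        exact abs_sub_le _ _ _
    _ ≤ _ := by
        rw [integral_add (hf.sub hv).integrable.abs (hc.sub hv).integrable.abs]
        linarith

end levels

/-- Products of numbers in the unit interval move by at most the sum of the moves. -/
lemma abs_prod_sub_prod_le {ι : Type} [Fintype ι] {f g : ι → ℝ} (hf : ∀ i, |f i| ≤ 1)
    (hg : ∀ i, |g i| ≤ 1) : |∏ i, f i - ∏ i, g i| ≤ ∑ i, |f i - g i| := by
  suffices H : ∀ s : Finset ι, |∏ i ∈ s, f i - ∏ i ∈ s, g i| ≤ ∑ i ∈ s, |f i - g i| from H _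
  intro s
  classical
  induction s using Finset.induction_on with
  | empty => simp
  | insert a s ha ih =>
    simp only [Finset.prod_insert ha, Finset.sum_insert ha]
    calc |f a * ∏ i ∈ s, f i - g a * ∏ i ∈ s, g i|
        = |f a * (∏ i ∈ s, f i - ∏ i ∈ s, g i) + (f a - g a) * ∏ i ∈ s, g i| := by ring_nf
      _ ≤ |f a| * |∏ i ∈ s, f i - ∏ i ∈ s, g i| + |f a - g a| * |∏ i ∈ s, g i| := by
          rw [← abs_mul, ← abs_mul]; exact abs_add_le _ _
      _ ≤ 1 * |∏ i ∈ s, f i - ∏ i ∈ s, g i| + |f a - g a| * 1 := by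
          refine add_le_add (mul_le_mul_of_nonneg_right (hf a) (abs_nonneg _))
            (mul_le_mul_of_nonneg_left ?_ (abs_nonneg _))
          rw [Finset.abs_prod]
          exact Finset.prod_le_one (fun i _ => abs_nonneg _) fun i _ => hg i
      _ ≤ _ := by linarith

/-- The free sites of a limit are products of single sites. -/
lemma free_eq_prod (L : Lim) : ∀ (m : ℕ) (P : Pat m),
    ∀ᵐ ω ∂L.P, R (Spc.free m) P ω =
      ∏ i : Fin m, R (Spc.free 1) ((P.filter fun p => p.2 = i).image fun p => (p.1, (0 : Fin 1))) ω := by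
  intro m
  induction m with
  | zero =>
    intro P
    have : P = ∅ := Finset.eq_empty_of_forall_notMem fun p _ => p.2.elim0
    subst this
    filter_upwards [L.one (Spc.free 0)] with ω hω
    simpa using hω
  | succ m ih =>
    intro P
    set P0 : Pat m := (Finset.univ : Finset (Fin m)).biUnion fun i =>
      ((P.filter fun p => p.2 = Fin.castAdd 1 i).image fun p => (p.1, i))
    set P1 : Pat 1 := (P.filter fun p => p.2 = Fin.last m).image fun p => (p.1, (0 : Fin 1))
    have hspc : (Spc.free m).app (Spc.free 1) = Spc.free (m + 1) := by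
      simp [Spc.app, Spc.free]
    have hcat : cat P0 P1 = P := by
      ext p
      obtain ⟨l, i⟩ := p
      simp only [cat, P0, P1, Finset.mem_union, Finset.mem_image, Finset.mem_biUnion,
        Finset.mem_univ, true_and, Finset.mem_filter, Prod.exists, Prod.mk.injEq]
      constructor
      · rintro (⟨a, b, ⟨i', a', b', ⟨h, hb'⟩, ha, hi'⟩, rfl, rfl⟩ | ⟨a, b, ⟨a', b', ⟨h, hb'⟩, ha, hb⟩, rfl, rfl⟩)
        · subst ha hi' hb'; exact h
        · subst ha hb'
          have : b = 0 := Subsingleton.elim _ _
          subst this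
          rw [show Fin.natAdd m (0 : Fin 1) = Fin.last m by ext; simp]
          exact h
      · intro h
        rcases i.eq_castSucc_or_eq_last with ⟨i', rfl⟩ | rfl
        · exact Or.inl ⟨l, i', ⟨i', l, _, ⟨h, rfl⟩, rfl, rfl⟩, rfl, rfl⟩
        · exact Or.inr ⟨l, 0, ⟨l, _, ⟨h, rfl⟩, rfl, rfl⟩, rfl, by ext; simp⟩
    filter_upwards [L.mult (Spc.free m) (Spc.free 1) P0 P1, ih P0] with ω h1 h2
    have key : R (Spc.free (m + 1)) P ω = R ((Spc.free m).app (Spc.free 1)) (cat P0 P1) ω := by
      have hR : ∀ (j j' : Spc) (h : j = j') (Q : Pat j.1) (Q' : Pat j'.1),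
          Q.image (fun p => (p.1, (p.2 : ℕ))) = Q'.image (fun p => (p.1, (p.2 : ℕ))) →
          R j Q ω = R j' Q' ω := by
        rintro j _ rfl Q Q' hQ
        have : Q = Q' := Finset.image_injective (f := fun p : ℕ × Fin j.1 => (p.1, (p.2 : ℕ)))
          (fun p q h => by simp only [Prod.mk.injEq] at h; exact Prod.ext h.1 (Fin.ext h.2)) hQ
        rw [this]
      refine hR _ _ hspc.symm _ _ ?_
      rw [hcat]
    rw [key, h1, h2, Fin.prod_univ_castSucc]
    congr 1
    refine Finset.prod_congr rfl fun i _ => ?_
    refine congrArg (fun Q => R (Spc.free 1) Q ω) ?_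
    ext q
    obtain ⟨l, z⟩ := q
    simp only [P0, Finset.mem_image, Finset.mem_filter, Finset.mem_biUnion, Finset.mem_univ,
      true_and, Prod.exists, Prod.mk.injEq]
    constructor
    · rintro ⟨a, b, ⟨⟨i', a', b', ⟨h, hb'⟩, ha, hi'⟩, hb⟩, rfl, rfl⟩
      subst ha hi' hb' hb
      exact ⟨_, _, ⟨h, rfl⟩, rfl, rfl⟩
    · rintro ⟨a, b, ⟨h, hb⟩, rfl, rfl⟩
      exact ⟨a, i, ⟨⟨i, a, b, ⟨h, hb⟩, rfl, rfl⟩, rfl⟩, rfl, rfl⟩

/-- The column law is the average of the products of column probabilities. -/
lemma colLaw_eq (L : Lim) (m n : ℕ) (σ : Fin n → Fin m → Bool) :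
    L.colLaw m n σ = ∫ ω, ∏ i : Fin m, colProb (fun l => σ l i) ω ∂L.P := by
  classical
  let e : Finset (Fin n × Fin m) ≃ (Fin m → Finset (Fin n)) :=
    { toFun := fun A i => Finset.univ.filter fun a => (a, i) ∈ A
      invFun := fun S => Finset.univ.filter fun p => p.1 ∈ S p.2
      left_inv := fun A => by ext p; simp
      right_inv := fun S => by funext i; ext a; simp }
  have hint : ∀ S : Fin m → Finset (Fin n), Integrable (fun ω => ∏ i, siteR (S i) ω) L.P := fun S =>
    Integrable.of_bound (Finset.measurable_prod _ fun i _ => measurable_siteR _).aestronglyMeasurable 1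
      (Eventually.of_forall fun ω => by
        rw [Real.norm_eq_abs, Finset.abs_prod]
        exact Finset.prod_le_one (fun i _ => abs_nonneg _) fun i _ => abs_R_le _ _ _)
  have hterm : ∀ A : Finset (Fin n × Fin m),
      ∫ ω, R (Spc.free m) (A.image fun p => ((p.1 : ℕ), p.2)) ω ∂L.P =
        ∫ ω, ∏ i, siteR (e A i) ω ∂L.P := fun A => by
    refine integral_congr_ae ((free_eq_prod L m _).mono fun ω hω => hω.trans ?_)
    refine Finset.prod_congr rfl fun i _ => ?_
    simp only [siteR]
    congr 1
    ext q
    obtain ⟨l, z⟩ := q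
    simp only [sitePat, e, Equiv.coe_fn_mk, Finset.mem_image, Finset.mem_filter, Finset.mem_univ,
      true_and, Prod.exists, Prod.mk.injEq]
    constructor
    · rintro ⟨a, b, ⟨⟨a', b', h, rfl, rfl⟩, hb⟩, rfl, rfl⟩
      subst hb
      exact ⟨a', h, rfl, rfl⟩
    · rintro ⟨a, h, rfl, rfl⟩
      exact ⟨a, i, ⟨⟨a, i, h, rfl, rfl⟩, rfl⟩, rfl, rfl⟩
  have hchi : ∀ S : Fin m → Finset (Fin n), ∏ p ∈ e.symm S, spin (σ p.1 p.2) =
      ∏ i, ∏ a ∈ S i, spin (σ a i) := fun S => by
    simp only [e, Equiv.coe_fn_symm_mk]
    exact Finset.prod_finset_product_right' (f := fun a i => spin (σ a i)) _ Finset.univ S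
      (fun p => by simp)
  simp only [Lim.colLaw, colProb, Finset.prod_mul_distrib, Finset.prod_const, Finset.card_univ,
    Fintype.card_fin, integral_const_mul, Fintype.prod_sum]
  rw [integral_finsetSum _ fun S _ => (hint S).const_mul _]
  congr 1
  · rw [inv_pow, ← pow_mul]
  refine Fintype.sum_equiv e _ _ fun A => ?_
  rw [hterm, integral_const_mul, ← hchi, e.symm_apply_apply]

/-- Coarse models converge to the free sites of a limit. -/
theorem exists_coarse (L : Lim) : ∃ κ : ℕ → CoarseModel,
    ∀ m n σ, Tendsto (fun t => (κ t).ker.col m n σ) atTop (𝓝 (L.colLaw m n σ)) := by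
  obtain ⟨w, hw⟩ := exists_weights
  have hX : GGTree L (comb w) := ggTree_comb L hw
  obtain ⟨A, hA⟩ := exists_arr L hw
  choose G _ using fun t : ℕ => (⟨(exists_grid A (K := t + 2) (by omega)).some, trivial⟩ :
    ∃ _ : Grid A (t + 2), True)
  choose ker hker using fun t => exists_siteKer hX hA (G t)
  refine ⟨fun t => ⟨(G t).r, _, (G t).lev, ker t⟩, fun m n σ => ?_⟩
  set col : Fin m → Fin n → Bool := fun i l => σ l i
  set avg : ℕ → Fin m → Cube → ℝ := fun t i ω =>
    cellAvg L (G t) (comb w) n (colProb (col i)) (coarse (G t) (comb w) n ω)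
  have havg : ∀ t i, Obs n (avg t i) := fun t i => obs_indicator_coarse hX (G t) _
  -- each column converges in mean
  have hcol : ∀ τ : Fin n → Bool, Tendsto (fun t => ∫ ω, |colProb τ ω -
      cellAvg L (G t) (comb w) n (colProb τ) (coarse (G t) (comb w) n ω)| ∂L.P) atTop (𝓝 0) := by
    intro τ
    obtain ⟨Ψ, hΨm, hΨ⟩ : ∃ Ψ : (Fin n → Fin n → ℝ) → ℝ, Measurable Ψ ∧
        (∃ C, ∀ M, |Ψ M| ≤ C) ∧ ∀ᵐ ω ∂L.P, colProb τ ω = Ψ (matS (comb w) n ω) := by
      rcases Nat.eq_zero_or_pos n with rfl | hn
      · refine ⟨fun _ => 1, measurable_const, ⟨1, fun _ => by simp⟩, ?_⟩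
        filter_upwards [L.one (Spc.free 1)] with ω hω
        simp [colProb, siteR, sitePat, Finset.univ_unique, hω,
          Subsingleton.elim (default : Finset (Fin 0)) ∅]
      choose φ hφm hφb hφ using fun S : Finset (Fin n) =>
        determined_all hw n hn (Spc.free 1) (sitePat S) (below_sitePat S)
      refine ⟨fun M => ((2 : ℝ) ^ n)⁻¹ * ∑ S, (∏ a ∈ S, spin (τ a)) * φ S M,
        (Finset.measurable_sum _ fun S _ => (hφm S).const_mul _).const_mul _,
        ⟨((2 : ℝ) ^ n)⁻¹ * ∑ _S : Finset (Fin n), 1, fun M => ?_⟩, ?_⟩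
      · rw [abs_mul, abs_of_nonneg (by positivity : (0 : ℝ) ≤ ((2 : ℝ) ^ n)⁻¹)]
        refine mul_le_mul_of_nonneg_left ((Finset.abs_sum_le_sum_abs _ _).trans
          (Finset.sum_le_sum fun S _ => ?_)) (by positivity)
        rw [abs_mul, Finset.abs_prod]
        refine mul_le_one₀ (Finset.prod_le_one (fun a _ => abs_nonneg _) fun a _ => ?_)
          (abs_nonneg _) (hφb S M)
        cases τ a <;> simp [spin]
      · filter_upwards [ae_all_iff.2 hφ] with ω hω
        simp [colProb, siteR, hω]
    obtain ⟨⟨D, hD⟩, hΨae⟩ := hΨ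
    set ν := L.P.map (matS (comb w) n)
    have hmn : Measurable (matS (comb w) n) := measurable_matS hX n
    have : IsProbabilityMeasure ν := Measure.isProbabilityMeasure_map hmn.aemeasurable
    have hΨi : Integrable Ψ ν := Integrable.of_bound hΨm.aestronglyMeasurable D
      (Eventually.of_forall fun M => by rw [Real.norm_eq_abs]; exact hD M)
    refine tendsto_order.2 ⟨fun a ha => Eventually.of_forall fun t =>
      ha.trans_le (integral_nonneg fun ω => abs_nonneg _), fun ε hε => ?_⟩
    obtain ⟨g, hg, -⟩ := hΨi.exists_boundedContinuous_integral_sub_le (ε := ε / 8) (by linarith)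
    -- grid values converge to the matrix
    set u : ∀ t, LMat (G t).r n → ℝ := fun t B => g (qmat (G t).q B)
    have hclose : ∀ᵐ ω ∂L.P, Tendsto (fun t => g (qmat (G t).q (coarse (G t) (comb w) n ω))) atTop
        (𝓝 (g (matS (comb w) n ω))) := by
      have h2 : ∀ᵐ ω ∂L.P, ∀ (t : ℕ) (a b : Fin n), a ≠ b →
          |(G t).q ((G t).τ (comb w a b ω)) - comb w a b ω| ≤ 2 / ((t + 2 : ℕ) : ℝ) := by
        refine ae_all_iff.2 fun t => ae_all_iff.2 fun a => ae_all_iff.2 fun b => ?_
        by_cases hab : a = b
        · exact Eventually.of_forall fun ω h => absurd hab h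
        have hc := (G t).close
        rw [hA 2] at hc
        have hc' := ae_of_ae_map (measurable_matS hX 2).aemeasurable hc
        have hab' : (a : ℕ) ≠ (b : ℕ) := fun h => hab (Fin.ext h)
        obtain ⟨e, he, e0, e1⟩ : ∃ e : ℕ → ℕ, Function.Injective e ∧ e 0 = a ∧ e 1 = b := by
          refine ⟨fun x => if x = 0 then (a : ℕ) else if x = 1 then (b : ℕ) else x + a + b + 1,
            fun x y h => ?_, by simp, by simp⟩
          simp only at h
          split_ifs at h <;> omega
        have hrel : Measurable (relabel e) := measurable_pi_lambda _ fun i => measurable_pi_apply _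
        rw [← L.inv e he] at hc'
        filter_upwards [ae_of_ae_map hrel.aemeasurable hc'] with ω hω _
        simpa [matS, hX.equiv e he, e0, e1] using hω
      filter_upwards [h2] with ω hω
      refine (g.continuous.tendsto _).comp ?_
      refine tendsto_pi_nhds.2 fun a => tendsto_pi_nhds.2 fun b => ?_
      by_cases hab : a = b
      · simp only [qmat, matS, hab, if_true]
        exact tendsto_const_nhds
      simp only [qmat, coarse, lift, matS, hab, if_false]
      refine tendsto_iff_norm_sub_tendsto_zero.2 (squeeze_zero (fun t => norm_nonneg _)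
        (fun t => ?_) ((tendsto_const_div_atTop_nhds_zero_nat (2 : ℝ)).comp (tendsto_add_atTop_nat 2)))
      simpa [Real.norm_eq_abs] using hω t a b hab
    have hlim : Tendsto (fun t => ∫ ω, |g (matS (comb w) n ω) -
        u t (coarse (G t) (comb w) n ω)| ∂L.P) atTop (𝓝 0) := by
      have h := tendsto_integral_of_dominated_convergence (μ := L.P)
        (F := fun t ω => |g (matS (comb w) n ω) - u t (coarse (G t) (comb w) n ω)|)
        (f := fun _ => 0) (fun _ => 2 * ‖g‖) (fun t => ?_) (integrable_const _)
        (fun t => Eventually.of_forall fun ω => ?_) (hclose.mono fun ω hω => ?_)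
      · simpa using h
      · exact (((g.continuous.measurable.comp hmn).sub ((measurable_of_finite (u t)).comp
          (measurable_coarse hX (G t) n))).abs).aestronglyMeasurable
      · rw [Real.norm_eq_abs, abs_abs]
        have h1 := g.norm_coe_le_norm (matS (comb w) n ω)
        have h2 := g.norm_coe_le_norm (qmat (G t).q (coarse (G t) (comb w) n ω))
        rw [Real.norm_eq_abs] at h1 h2
        exact (abs_sub _ _).trans (by simp only [u]; linarith)
      · simpa [u] using ((tendsto_const_nhds (x := g (matS (comb w) n ω))).sub hω).abs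
    have hg' : ∫ ω, |colProb τ ω - g (matS (comb w) n ω)| ∂L.P ≤ ε / 8 := by
      have hm' : Measurable fun M => ‖Ψ M - g M‖ := (hΨm.sub g.continuous.measurable).norm
      rw [show (∫ ω, |colProb τ ω - g (matS (comb w) n ω)| ∂L.P) = ∫ M, ‖Ψ M - g M‖ ∂ν from ?_]
      · exact hg
      rw [integral_map hmn.aemeasurable hm'.aestronglyMeasurable]
      exact integral_congr_ae (hΨae.mono fun ω hω => by simp [hω])
    filter_upwards [hlim.eventually_lt_const (u := ε / 8) (by linarith)] with t ht
    refine (integral_abs_sub_cellAvg hX hA (G t) (obs_colProb τ) (u t)).trans_lt ?_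
    have hgi : Integrable (fun ω => g (matS (comb w) n ω)) L.P :=
      Integrable.of_bound (g.continuous.measurable.comp hmn).aestronglyMeasurable ‖g‖
        (Eventually.of_forall fun ω => g.norm_coe_le_norm _)
    have hui := (obs_indicator_coarse hX (G t) (n := n) (u t)).integrable (L := L)
    have hle : ∫ ω, |colProb τ ω - u t (coarse (G t) (comb w) n ω)| ∂L.P ≤
        ∫ ω, (|colProb τ ω - g (matS (comb w) n ω)| +
          |g (matS (comb w) n ω) - u t (coarse (G t) (comb w) n ω)|) ∂L.P :=
      integral_mono ((obs_colProb τ).integrable.sub hui).abs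
        (((obs_colProb τ).integrable.sub hgi).abs.add (hgi.sub hui).abs) fun ω => abs_sub_le _ _ _
    rw [integral_add] at hle
    · linarith
    · exact ((obs_colProb τ).integrable.sub hgi).abs
    · exact (hgi.sub hui).abs
  rw [colLaw_eq]
  simp only [col_eq hX hA _ (ker _) (hker _)]
  rw [tendsto_iff_norm_sub_tendsto_zero]
  refine squeeze_zero (fun t => norm_nonneg _) (fun t => ?_)
    (by simpa using tendsto_finsetSum (Finset.univ : Finset (Fin m)) fun i _ => hcol (col i))
  have hp : Integrable (fun ω => ∏ i, colProb (col i) ω) L.P := by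
    refine Integrable.of_bound (Finset.measurable_prod _ fun i _ =>
      measurable_colProb _).aestronglyMeasurable 1 ?_
    filter_upwards [ae_all_iff.2 fun τ : Fin n → Bool => colProb_nonneg L τ,
      L.one (Spc.free 1)] with ω h0 h1
    rw [Real.norm_eq_abs, Finset.abs_prod]
    refine Finset.prod_le_one (fun i _ => abs_nonneg _) fun i _ => ?_
    rw [abs_of_nonneg (h0 _)]
    calc colProb (col i) ω ≤ ∑ τ, colProb τ ω :=
          Finset.single_le_sum (f := fun τ => colProb τ ω) (fun τ _ => h0 τ) (Finset.mem_univ _)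
      _ = 1 := by rw [sum_colProb, h1]
  have hb : ∀ τ : Fin n → Bool, ∀ᵐ ω ∂L.P, |colProb τ ω| ≤ 1 ∧
      |cellAvg L (G t) (comb w) n (colProb τ) (coarse (G t) (comb w) n ω)| ≤ 1 := fun τ => by
    have hgood : ∀ᵐ ω ∂L.P, Good (coarse (G t) (comb w) n ω) := by
      have h : ∀ B : LMat (G t).r n, ¬ Good B → ∀ᵐ ω ∂L.P, coarse (G t) (comb w) n ω ≠ B := by
        intro B hB
        have h0 : (A.toCasc (G t).τ (G t).meas (G t).mono).P n B = 0 := by
          by_contra hne; exact hB (Casc.good _ hne)
        rw [casc_P hX hA (G t)] at h0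
        have := (integral_eq_zero_iff_of_nonneg (fun ω => by positivity)
          ((obs_indicator_coarse hX (G t) (n := n) fun B' => if B' = B then 1 else 0).integrable)).1 h0
        filter_upwards [this] with ω hω h
        simp [h] at hω
      filter_upwards [ae_all_iff.2 fun B : {B : LMat (G t).r n // ¬ Good B} => h B.1 B.2] with ω hω
      by_contra hbad
      exact hω ⟨_, hbad⟩ rfl
    filter_upwards [ae_all_iff.2 fun τ : Fin n → Bool => colProb_nonneg L τ,
      L.one (Spc.free 1), hgood] with ω h0 h1 hB
    refine ⟨?_, ?_⟩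
    · rw [abs_of_nonneg (h0 _)]
      calc colProb τ ω ≤ ∑ τ', colProb τ' ω :=
            Finset.single_le_sum (f := fun τ => colProb τ ω) (fun τ _ => h0 τ) (Finset.mem_univ _)
        _ = 1 := by rw [sum_colProb, h1]
    · rw [← hker t, abs_of_nonneg ((ker t).nonneg n _ _ hB), ← (ker t).total n _ hB]
      exact Finset.single_le_sum (fun τ' _ => (ker t).nonneg n _ τ' hB) (Finset.mem_univ _)
  have hq : Integrable (fun ω => ∏ i, avg t i ω) L.P := by
    refine Integrable.of_bound (Finset.measurable_prod _ fun i _ =>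
      (havg t i).measurable).aestronglyMeasurable 1 ?_
    filter_upwards [ae_all_iff.2 hb] with ω hω
    rw [Real.norm_eq_abs, Finset.abs_prod]
    exact Finset.prod_le_one (fun i _ => abs_nonneg _) fun i _ => (hω _).2
  have hi : ∀ i, Integrable (fun ω => |colProb (col i) ω - avg t i ω|) L.P := fun i =>
    ((obs_colProb _).sub (havg t i)).integrable.abs
  show ‖(∫ ω, ∏ i, avg t i ω ∂L.P) - ∫ ω, ∏ i, colProb (col i) ω ∂L.P‖ ≤ _
  rw [← integral_sub hq hp, Real.norm_eq_abs]
  refine abs_integral_le_integral_abs.trans ?_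
  rw [← integral_finsetSum _ fun i _ => hi i]
  refine integral_mono_ae (hq.sub hp).abs (integrable_finsetSum _ fun i _ => hi i) ?_
  filter_upwards [ae_all_iff.2 hb] with ω hω
  refine (abs_prod_sub_prod_le (fun i => (hω _).2) fun i => (hω _).1).trans_eq
    (Finset.sum_congr rfl fun i _ => abs_sub_comm _ _)

end Vale.Agent.P168
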