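import Vale.Agent.P168.Lim

/-!
P168: the series of the logarithm of an averaged weight: bounds, measurability, continuity.
-/

namespace Vale.Agent.P168

open MeasureTheory Filter Finset
open scoped Topology

variable {m : ℕ}

/-- A weight between `exp (-L)` and `exp L`. -/
def WBdd (W : (Fin m → Bool) → ℝ) (L : ℝ) : Prop :=
  ∀ τ, Real.exp (-L) ≤ W τ ∧ W τ ≤ Real.exp L

lemma exists_wbdd {W : (Fin m → Bool) → ℝ} (h : ∀ τ, 0 < W τ) : ∃ L, WBdd W L := by
  refine ⟨∑ τ, |Real.log (W τ)|, fun τ => ?_⟩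
  have hle : |Real.log (W τ)| ≤ ∑ s, |Real.log (W s)| :=
    Finset.single_le_sum (f := fun s => |Real.log (W s)|) (fun s _ => abs_nonneg _)
      (Finset.mem_univ τ)
  obtain ⟨h1, h2⟩ := abs_le.1 hle
  constructor
  · simpa [Real.exp_log (h τ)] using Real.exp_le_exp.2 h1
  · simpa [Real.exp_log (h τ)] using Real.exp_le_exp.2 h2

variable {W : (Fin m → Bool) → ℝ} {L : ℝ}

lemma WBdd.pos (hW : WBdd W L) (τ : Fin m → Bool) : 0 < W τ :=
  (Real.exp_pos _).trans_le (hW τ).1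

lemma WBdd.sum_pos (hW : WBdd W L) : 0 < ∑ τ, W τ :=
  Finset.sum_pos (fun τ _ => hW.pos τ) Finset.univ_nonempty

lemma WBdd.le_sum (hW : WBdd W L) (τ : Fin m → Bool) : W τ ≤ ∑ s, W s :=
  Finset.single_le_sum (fun s _ => (hW.pos s).le) (Finset.mem_univ τ)

lemma WBdd.log_sum (hW : WBdd W L) :
    -L ≤ Real.log (∑ τ, W τ) ∧ Real.log (∑ τ, W τ) ≤ L + m * Real.log 2 := by
  constructor
  · exact (Real.le_log_iff_exp_le hW.sum_pos).2
      ((hW fun _ => false).1.trans (hW.le_sum _))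
  · rw [Real.log_le_iff_le_exp hW.sum_pos, Real.exp_add, Real.exp_nat_mul,
      Real.exp_log two_pos]
    calc ∑ τ, W τ ≤ ∑ _τ : Fin m → Bool, Real.exp L := Finset.sum_le_sum fun τ _ => (hW τ).2
      _ = Real.exp L * 2 ^ m := by simp [mul_comm]

/-- The largest value of `1 - W / ∑ W`. -/
noncomputable def gap (W : (Fin m → Bool) → ℝ) (L : ℝ) : ℝ := 1 - Real.exp (-L) / ∑ τ, W τ

lemma WBdd.frac_mem (hW : WBdd W L) (τ : Fin m → Bool) :
    0 ≤ 1 - W τ / ∑ s, W s ∧ 1 - W τ / ∑ s, W s ≤ gap W L := by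
  constructor
  · rw [sub_nonneg, div_le_one hW.sum_pos]
    exact hW.le_sum τ
  · have := div_le_div_of_nonneg_right (hW τ).1 hW.sum_pos.le
    unfold gap
    linarith

lemma WBdd.gap_mem (hW : WBdd W L) : 0 ≤ gap W L ∧ gap W L < 1 := by
  refine ⟨(hW.frac_mem fun _ => false).1.trans (hW.frac_mem fun _ => false).2, ?_⟩
  have : 0 < Real.exp (-L) / ∑ s, W s := div_pos (Real.exp_pos _) hW.sum_pos
  unfold gap
  linarith

variable {p : ColLaw}

lemma WBdd.term_mem (hW : WBdd W L) (hp : p.IsProb) (k : ℕ) :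
    0 ≤ (∑ σ, p m (k + 1) σ * ∏ l, (1 - W (σ l) / ∑ τ, W τ)) / ((k : ℝ) + 1) ∧
      (∑ σ, p m (k + 1) σ * ∏ l, (1 - W (σ l) / ∑ τ, W τ)) / ((k : ℝ) + 1) ≤
        gap W L ^ (k + 1) / ((k : ℝ) + 1) := by
  refine ⟨div_nonneg (Finset.sum_nonneg fun σ _ => mul_nonneg (hp.nonneg _ _ _)
    (Finset.prod_nonneg fun l _ => (hW.frac_mem _).1)) (by positivity), ?_⟩
  refine div_le_div_of_nonneg_right ?_ (by positivity)
  calc ∑ σ, p m (k + 1) σ * ∏ l, (1 - W (σ l) / ∑ τ, W τ)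
      ≤ ∑ σ, p m (k + 1) σ * gap W L ^ (k + 1) := Finset.sum_le_sum fun σ _ =>
        mul_le_mul_of_nonneg_left ((Finset.prod_le_prod (fun l _ => (hW.frac_mem _).1)
          fun l _ => (hW.frac_mem _).2).trans (by simp)) (hp.nonneg _ _ _)
    _ = _ := by rw [← Finset.sum_mul, hp.total, one_mul]

lemma WBdd.hasSum_gap (hW : WBdd W L) :
    HasSum (fun k : ℕ => gap W L ^ (k + 1) / ((k : ℝ) + 1))
      (L + Real.log (∑ τ, W τ)) := by
  have h := hW.gap_mem
  convert Real.hasSum_pow_div_log_of_abs_lt_one (x := gap W L)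
    (by rw [abs_of_nonneg h.1]; exact h.2) using 1
  rw [gap, sub_sub_cancel, Real.log_div (Real.exp_pos _).ne' hW.sum_pos.ne', Real.log_exp]
  ring

lemma abs_logMom_le (hW : WBdd W L) (hp : p.IsProb) :
    |logMom p W| ≤ L + m * Real.log 2 := by
  have hs := Summable.of_nonneg_of_le (fun k => (hW.term_mem hp k).1)
    (fun k => (hW.term_mem hp k).2) hW.hasSum_gap.summable
  have h0 := hs.hasSum.nonneg fun k => (hW.term_mem hp k).1
  have h1 := hasSum_le (fun k => (hW.term_mem hp k).2) hs.hasSum hW.hasSum_gap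
  obtain ⟨h2, h3⟩ := hW.log_sum
  have : (0 : ℝ) ≤ m * Real.log 2 := mul_nonneg (Nat.cast_nonneg _) (Real.log_nonneg one_le_two)
  rw [logMom, abs_le]
  constructor <;> linarith

lemma tendsto_logMom (hW : ∀ τ, 0 < W τ) {p : ℕ → ColLaw} {q : ColLaw} (hp : ∀ t, (p t).IsProb)
    (h : ∀ m n σ, Tendsto (fun t => p t m n σ) atTop (𝓝 (q m n σ))) :
    Tendsto (fun t => logMom (p t) W) atTop (𝓝 (logMom q W)) := by
  obtain ⟨L, hL⟩ := exists_wbdd hW
  refine tendsto_const_nhds.sub (tendsto_tsum_of_dominated_convergence hL.hasSum_gap.summable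
    (fun k => ?_) (Eventually.of_forall fun t k => ?_))
  · exact (tendsto_finsetSum _ fun σ _ => (h _ _ _).mul_const _).div_const _
  · rw [Real.norm_eq_abs, abs_of_nonneg (hL.term_mem (hp t) k).1]
    exact (hL.term_mem (hp t) k).2

lemma measurable_logMom {X : Type*} [MeasurableSpace X] (p : ColLaw)
    {F : X → (Fin m → Bool) → ℝ} (hF : ∀ τ, Measurable fun x => F x τ) :
    Measurable fun x => logMom p (F x) := by
  have hS : Measurable fun x => ∑ τ, F x τ := Finset.measurable_sum _ fun τ _ => hF τ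
  exact hS.log.sub (Measurable.tsum fun k => (Finset.measurable_sum _ fun σ _ =>
    (Finset.measurable_prod _ fun l _ => measurable_const.sub ((hF _).div hS)).const_mul _).div_const _)

/-! ### Poisson averages -/

/-- A bound of the Poisson averages of what is below `D * 2 ^ n`. -/
noncomputable def poisBound (c D : ℝ) : ℝ := Real.exp (-c) * Real.exp (2 * c) * D

lemma hasSum_poisBound (c D : ℝ) :
    HasSum (fun n : ℕ => Real.exp (-c) * c ^ n / n.factorial * (D * 2 ^ n)) (poisBound c D) := by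
  have := ((NormedSpace.expSeries_div_hasSum_exp (2 * c)).mul_left (Real.exp (-c))).mul_right D
  rw [← congrFun Real.exp_eq_exp_ℝ] at this
  refine this.congr_fun fun n => ?_
  rw [mul_pow]
  ring

lemma norm_pois_le {c D : ℝ} (hc : 0 ≤ c) {G : ℕ → ℝ} (hG : ∀ n, |G n| ≤ D * 2 ^ n) (n : ℕ) :
    ‖Real.exp (-c) * c ^ n / n.factorial * G n‖ ≤
      Real.exp (-c) * c ^ n / n.factorial * (D * 2 ^ n) := by
  rw [Real.norm_eq_abs, abs_mul, abs_of_nonneg (by positivity : (0 : ℝ) ≤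
    Real.exp (-c) * c ^ n / n.factorial)]
  exact mul_le_mul_of_nonneg_left (hG n) (by positivity)

lemma abs_poissonAvg_le {c D : ℝ} (hc : 0 ≤ c) {G : ℕ → ℝ} (hG : ∀ n, |G n| ≤ D * 2 ^ n) :
    |poissonAvg c G| ≤ poisBound c D :=
  tsum_of_norm_bounded (hasSum_poisBound c D) (norm_pois_le hc hG)

lemma tendsto_poissonAvg {c D : ℝ} (hc : 0 ≤ c) {G : ℕ → ℕ → ℝ} {g : ℕ → ℝ}
    (hG : ∀ t n, |G t n| ≤ D * 2 ^ n) (h : ∀ n, Tendsto (fun t => G t n) atTop (𝓝 (g n))) :
    Tendsto (fun t => poissonAvg c (G t)) atTop (𝓝 (poissonAvg c g)) :=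
  tendsto_tsum_of_dominated_convergence (hasSum_poisBound c D).summable
    (fun n => (h n).const_mul _) (Eventually.of_forall fun t n => norm_pois_le hc (hG t) n)

end Vale.Agent.P168
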