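import Vale.Agent.P168.MP.Tree.Approx

/-!
P168: consistent laws of one site over a cascade are realised by messages.
-/

namespace Vale.Agent.P168

open Filter Finset MeasureTheory Vale.Agent.P157.Low Vale.Agent.P166F.Low.Cascade
open scoped Topology

/-- In a trial the sites are independent given the cascade. -/
lemma trialLaw_eq {r : ℕ} (C : Casc r) {x : (Fin (r + 1) → UI) → ℝ} (hx : Measurable x) (m n : ℕ)
    (σ : Fin n → Fin m → Bool) :
    trialLaw C x m n σ = ∑ A, C.P n A * ∏ i : Fin m, ∫ ω : Fin (r + 1) × Fin n → UI,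
      ∏ l, msgWeight (x fun p => ω (p, rep p A l)) (σ l i)
        ∂(Measure.pi fun _ : Fin (r + 1) × Fin n => (volume : Measure UI)) := by
  refine sum_congr rfl fun A _ => congrArg _ ?_
  have hT := measurePreserving_transpose (Fin (r + 1) × Fin n) (Fin m) (volume : Measure UI)
  set g : Fin m → (Fin (r + 1) × Fin n → UI) → ℝ := fun i ω =>
    ∏ l, msgWeight (x fun p => ω (p, rep p A l)) (σ l i) with hg
  have hgm : ∀ i, Measurable (g i) := fun i => Finset.measurable_prod univ fun l _ => by
    unfold msgWeight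
    exact (((hx.comp (measurable_pi_lambda (fun (ω : Fin (r + 1) × Fin n → UI) p => ω (p, rep p A l))
      fun p => measurable_pi_apply (p, rep p A l))).mul_const _).const_add
      1).div_const 2
  have h1 : Measurable fun z : Fin m → Fin (r + 1) × Fin n → UI => ∏ i, g i (z i) :=
    Finset.measurable_prod univ fun i _ => (hgm i).comp (measurable_pi_apply i)
  calc (pathTower C (volume : Measure (Fin m → UI)) fun _ => 0).plain A
        (fun l y => ∏ i, msgWeight (msg x y i) (σ l i))
      = ∫ ω : Fin (r + 1) × Fin n → Fin m → UI, ∏ i, g i (fun q => ω q i)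
          ∂(Measure.pi fun _ => Measure.pi fun _ : Fin m => (volume : Measure UI)) := by
        refine integral_congr_ae (Eventually.of_forall fun ω => ?_)
        simp only [pos_pathTower, msg, hg]
        exact prod_comm
    _ = ∫ z, ∏ i, g i (z i)
          ∂(Measure.pi fun _ : Fin m => Measure.pi fun _ : Fin (r + 1) × Fin n => (volume : Measure UI)) := by
        rw [← hT.map_eq, integral_map hT.measurable.aemeasurable h1.aestronglyMeasurable]
    _ = _ := integral_fintype_prod_eq_prod g

/-- Trials approximate a site kernel. -/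
theorem exists_trials {r : ℕ} {C : Casc r} (κ : SiteKer C) :
    ∃ x : ℕ → (Fin (r + 1) → UI) → ℝ, (∀ t, Measurable (x t)) ∧ (∀ t ω, |x t ω| ≤ 1) ∧
      ∀ m n σ, Tendsto (fun t => trialLaw C (x t) m n σ) atTop (𝓝 (κ.col m n σ)) := by
  classical
  set N : ℕ → ℕ := fun t => Fintype.card (Fin (r + 1) → Fin (t + 1))
  set e : ∀ t, (Fin (r + 1) → Fin (t + 1)) ≃ Fin (N t) := fun t => Fintype.equivFin _
  set p : ∀ t, (Fin (N t) → Bool) → ℝ := fun t => κ.law (N t) (leafArr fun a => (e t).symm a)
  have hpick := fun t => exists_pick (p t) (fun s => κ.nonneg _ _ s (good_leafArr _))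
    (κ.total _ _ (good_leafArr _))
  choose S0 hS0 hS0law using hpick
  have hunif := fun t : ℕ => exists_pick (fun _ : Fin (t + 1) => 1 / ((t + 1 : ℕ) : ℝ))
    (fun _ => by positivity)
    (by simp [show ((t : ℝ) + 1) ≠ 0 by positivity])
  choose c hc hclaw using hunif
  set S : ∀ t, UI → (Fin (r + 1) → Fin (t + 1)) → Bool := fun t u => S0 t u ∘ e t
  have hS : ∀ t, Measurable (S t) := fun t =>
    (measurable_of_finite fun s : Fin (N t) → Bool => s ∘ e t).comp (hS0 t)
  refine ⟨fun t => treeMsg (S t) (c t), fun t => measurable_treeMsg (hS t) (hc t),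
    fun t ω => abs_treeMsg_le (Nat.succ_pos t) _ _ ω, fun m n σ => ?_⟩
  simp only [fun t => trialLaw_eq C (measurable_treeMsg (hS t) (hc t)) m n σ, SiteKer.col]
  refine tendsto_finsetSum _ fun A _ => ?_
  rcases eq_or_ne (C.P n A) 0 with h0 | h0
  · simp [h0]
  refine (tendsto_finsetProd _ fun i _ => ?_).const_mul _
  refine tendsto_iff_norm_sub_tendsto_zero.2 (squeeze_zero (fun t => norm_nonneg _)
    (fun t => (Real.norm_eq_abs _).trans_le (abs_site_sub_le κ (Nat.succ_pos t) (e t) (hS t) (hc t)
      (fun g => hS0law t fun s => g (s ∘ e t)) (hclaw t) (C.good h0) _)) ?_)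
  simpa [Function.comp_def] using
    ((tendsto_const_div_atTop_nhds_zero_nat ((n : ℝ) ^ 2)).comp (tendsto_add_atTop_nat 1))

end Vale.Agent.P168
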